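import Vale.Agent.P338.Defs

/-!
# P338: basic facts on the machine model
-/

namespace Vale.Agent.P338

namespace Machine

variable {M : Machine}

theorem after_none_of_haltsAt {w : List (Symb M.E)} {t : ℕ} {c : M.Cfg} (h : M.HaltsAt w t c)
    (j : ℕ) : M.after w (t + 1 + j) = none := by
  induction j with
  | zero =>
    show (M.after w t).bind M.step = none
    rw [h.1]; exact h.2
  | succ j ih =>
    show (M.after w (t + 1 + j)).bind M.step = none
    rw [ih]; rfl

theorem HaltsAt.time_unique {w : List (Symb M.E)} {t t' : ℕ} {c c' : M.Cfg}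
    (h : M.HaltsAt w t c) (h' : M.HaltsAt w t' c') : t = t' := by
  rcases lt_trichotomy t t' with hlt | heq | hgt
  · obtain ⟨j, rfl⟩ := Nat.exists_eq_add_of_lt hlt
    have := after_none_of_haltsAt h j
    rw [show t + j + 1 = t + 1 + j by ring] at h'
    rw [h'.1] at this
    exact absurd this (by simp)
  · exact heq
  · obtain ⟨j, rfl⟩ := Nat.exists_eq_add_of_lt hgt
    have := after_none_of_haltsAt h' j
    rw [show t' + j + 1 = t' + 1 + j by ring] at h
    rw [h.1] at this
    exact absurd this (by simp)

theorem HaltsAt.cfg_unique {w : List (Symb M.E)} {t t' : ℕ} {c c' : M.Cfg}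
    (h : M.HaltsAt w t c) (h' : M.HaltsAt w t' c') : c = c' := by
  have := h.time_unique h'
  subst this
  have h1 := h.1
  rw [h'.1] at h1
  exact (Option.some.inj h1).symm

/-- The run time of a halting computation. -/
theorem HaltsAt.runTime_eq {w : List (Symb M.E)} {t : ℕ} {c : M.Cfg} (h : M.HaltsAt w t c) :
    M.runTime w = t := by
  have : {t | ∃ c, M.HaltsAt w t c} = {t} := by
    ext t'
    constructor
    · rintro ⟨c', h'⟩
      exact h'.time_unique h
    · intro ht
      rw [Set.mem_singleton_iff] at ht
      subst ht
      exact ⟨c, h⟩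
  unfold runTime
  rw [this]
  exact csInf_singleton t

theorem Outputs.haltsAt_runTime {w : List (Symb M.E)} {z : List Bool} (h : M.Outputs w z) :
    ∃ c, M.HaltsAt w (M.runTime w) c ∧ c.tape M.out = written (z.map Symb.bit) := by
  obtain ⟨t, c, h1, h2⟩ := h
  rw [h1.runTime_eq]
  exact ⟨c, h1, h2⟩

/-- After `t` steps all cells from position `t` on are unchanged and all heads are at
positions at most `t`. -/
theorem after_far {w : List (Symb M.E)} {t : ℕ} {c : M.Cfg} (h : M.after w t = some c) :
    (∀ i, c.head i ≤ t) ∧ ∀ i j, t ≤ j → c.tape i j = (M.init w).tape i j := by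
  induction t generalizing c with
  | zero =>
    have : c = M.init w := by
      have h0 : (some (M.init w) : Option M.Cfg) = some c := h
      exact (Option.some.inj h0).symm
    subst this
    exact ⟨fun i => le_refl _, fun i j _ => rfl⟩
  | succ t ih =>
    have h0 : (M.after w t).bind M.step = some c := h
    obtain ⟨c', hc', hs⟩ := Option.bind_eq_some_iff.mp h0
    obtain ⟨ih1, ih2⟩ := ih hc'
    unfold step at hs
    obtain ⟨r, hr, rfl⟩ := Option.map_eq_some_iff.mp hs
    refine ⟨fun i => ?_, fun i j hj => ?_⟩
    · show ((r.2 i).2).app (c'.head i) ≤ t + 1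
      have := ih1 i
      cases (r.2 i).2 <;> simp only [Move.app] <;> omega
    · show Function.update (c'.tape i) (c'.head i) (r.2 i).1 j = _
      have := ih1 i
      rw [Function.update_of_ne (by omega)]
      exact ih2 i j (by omega)

end Machine

theorem length_bin (k z : ℕ) : (bin k z).length = k := by
  simp [bin]

theorem length_mulInput {E : Type} (x y : List Bool) :
    (mulInput x y : List (Symb E)).length = x.length + y.length + 1 := by
  simp [mulInput]; ring

/-- A machine that multiplies needs at least `n` steps on inputs of size `n` -/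
theorem Multiplies.le_runTime {A : Machine} (hA : Multiplies A) {n : ℕ} (x y : List Bool)
    (hx : x.length = n) (hy : y.length = n) : n ≤ A.runTime (mulInput x y) := by
  rcases Nat.eq_zero_or_pos n with rfl | hn
  · exact Nat.zero_le _
  obtain ⟨c, h1, h2⟩ := (hA n hn x y hx hy).haltsAt_runTime
  by_contra hlt
  rw [not_le] at hlt
  obtain ⟨-, h3⟩ := Machine.after_far h1.1
  -- the cell `2 n` of the output tape is blank, the cell `2 n - 1` is not
  have hlen : (bin (2 * n) (val x * val y)).length = 2 * n := length_bin _ _
  have e1 : c.tape A.out (2 * n) = Symb.blank := by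
    rw [h2]
    unfold Machine.written
    rw [List.getD_eq_default]
    simp [hlen]
  have e2 : c.tape A.out (2 * n - 1) ≠ Symb.blank := by
    rw [h2]
    unfold Machine.written
    rw [List.getD_eq_getElem _ _ (by simp [hlen]; omega)]
    simp
  rw [h3 _ _ (by omega)] at e1 e2
  unfold Machine.init at e1 e2
  simp only at e1 e2
  split_ifs at e1 e2 with h0
  · -- output tape = input tape: cell `2 n` carries the last bit of `y`
    unfold Machine.written at e1
    rw [List.getD_eq_getElem _ _ (by rw [length_mulInput]; omega)] at e1
    have : (mulInput x y : List (Symb A.E))[2 * n]'(by rw [length_mulInput]; omega) ≠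
        Symb.blank := by
      have hmem : (mulInput x y : List (Symb A.E))[2 * n]'(by rw [length_mulInput]; omega) ∈
          (mulInput x y : List (Symb A.E)) := List.getElem_mem _
      intro hb
      rw [hb] at hmem
      simp [mulInput] at hmem
    exact this e1
  · exact e2 rfl

theorem le_mulTime_of {A : Machine} {n : ℕ} (x y : List Bool)
    (hx : x.length = n) (hy : y.length = n) :
    A.runTime (mulInput x y) ≤ mulTime A n := by
  subst hx
  have := Finset.le_sup (f := fun p : (Fin x.length → Bool) × (Fin x.length → Bool) =>
    A.runTime (mulInput (List.ofFn p.1) (List.ofFn p.2)))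
    (Finset.mem_univ (fun i => x.get i, fun i => y.get (Fin.cast hy.symm i)))
  have e1 : List.ofFn (fun i : Fin x.length => x.get i) = x := List.ofFn_get x
  have e2 : List.ofFn (fun i : Fin x.length => y.get (Fin.cast hy.symm i)) = y := by
    conv_rhs => rw [← List.ofFn_get y]
    rw [List.ofFn_congr hy]
  simp only [e1, e2] at this
  exact this

theorem Multiplies.le_mulTime {A : Machine} (hA : Multiplies A) (n : ℕ) :
    n ≤ mulTime A n := by
  refine le_trans (hA.le_runTime (List.replicate n false) (List.replicate n false) ?_ ?_)
    (le_mulTime_of _ _ ?_ ?_) <;> simp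

theorem wordTime_le {B : Machine} {N b : ℕ}
    (h : ∀ w : List Bool, w.length = N → B.runTime (w.map Symb.bit) ≤ b) :
    wordTime B N ≤ b :=
  Finset.sup_le fun w _ => h _ (by simp)

theorem TransposesAll.transposes {B : Machine} (h : TransposesAll B) : Transposes B := by
  intro n hn w hw
  have hne : w ≠ [] := by
    intro h0
    rw [h0, List.length_nil] at hw
    have : 0 < n * n := Nat.mul_pos hn hn
    omega
  have := h w hne
  rwa [hw, Nat.sqrt_eq] at this

end Vale.Agent.P338
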