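import Vale.Agent.P338.Lang

/-!
# Renaming of registers and symbols

A program written over its own small register type `R'` and alphabet `Γ'` can be used inside a
larger one: `p.emb e` where `e : Emb R' R Γ' Γ`.  If `Runs p s s' c` then `p.emb e` started on
any store `S` which agrees with `s` on the registers of `p` ends in the store which agrees with
`s'` there and is unchanged elsewhere.
-/

namespace Vale.Agent.P338

/-- An embedding of registers `R' → R` and of symbols `Γ' → Γ`, with inverses. -/
structure Emb (R' R Γ' Γ : Type) where
  reg : R' → R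
  regInv : R → Option R'
  reg_inv : ∀ r, regInv (reg r) = some r
  reg_eq : ∀ r r', regInv r = some r' → reg r' = r
  sym : Γ' → Γ
  symInv : Γ → Option Γ'
  sym_inv : ∀ a, symInv (sym a) = some a

namespace Emb

variable {R' R Γ' Γ : Type} (e : Emb R' R Γ' Γ)

/-- Renaming of registers only. -/
def ofReg (reg : R' → R) (regInv : R → Option R') (h1 : ∀ r, regInv (reg r) = some r)
    (h2 : ∀ r r', regInv r = some r' → reg r' = r) : Emb R' R Γ Γ :=
  ⟨reg, regInv, h1, h2, id, some, fun _ => rfl⟩

/-- Symbolwise translation of an operation. -/
def op : Op Γ' → Op Γ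
  | .nop => .nop
  | .push a => .push (e.sym a)
  | .pop => .pop
  | .rep a => .rep (e.sym a)

/-- The tops of the registers of the small program. -/
def tops (t : R → Option Γ) : R' → Option Γ' := fun r => (t (e.reg r)).bind e.symInv

/-- `S` with the registers of the small program set to `s`. -/
def put (S : Store R Γ) (s : Store R' Γ') : Store R Γ := fun r =>
  match e.regInv r with
  | some r' => (s r').map e.sym
  | none => S r

theorem put_reg (S : Store R Γ) (s : Store R' Γ') (r : R') :
    e.put S s (e.reg r) = (s r).map e.sym := by
  simp [put, e.reg_inv]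

theorem put_of_none (S : Store R Γ) (s : Store R' Γ') {r : R} (h : e.regInv r = none) :
    e.put S s r = S r := by
  simp [put, h]

theorem put_put (S : Store R Γ) (s s' : Store R' Γ') : e.put (e.put S s) s' = e.put S s' := by
  funext r
  unfold put
  cases e.regInv r <;> rfl

theorem put_self {S : Store R Γ} {s : Store R' Γ'} (h : ∀ r, S (e.reg r) = (s r).map e.sym) :
    e.put S s = S := by
  funext r
  unfold put
  cases h' : e.regInv r with
  | none => rfl
  | some r' =>
    simp only
    rw [← e.reg_eq r r' h', h]

theorem put_eq {S S' : Store R Γ} {s : Store R' Γ'}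
    (h : ∀ r, S' (e.reg r) = (s r).map e.sym)
    (h' : ∀ r, e.regInv r = none → S' r = S r) : e.put S s = S' := by
  funext r
  unfold put
  cases h1 : e.regInv r with
  | none => exact (h' r h1).symm
  | some r' =>
    simp only
    rw [← e.reg_eq r r' h1, h]

theorem tops_put (S : Store R Γ) (s : Store R' Γ') : e.tops (e.put S s).tops = s.tops := by
  funext r
  simp only [tops, Store.tops, put_reg]
  cases s r with
  | nil => rfl
  | cons a l => simp [e.sym_inv]

theorem op_app (o : Op Γ') (l : List Γ') : (e.op o).app (l.map e.sym) = (o.app l).map e.sym := by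
  cases o with
  | nop => rfl
  | push a => rfl
  | pop => cases l <;> rfl
  | rep a => cases l <;> rfl

end Emb

/-- The program `p` with registers and symbols renamed. -/
def Prog.emb {R' R Γ' Γ : Type} (e : Emb R' R Γ' Γ) : Prog R' Γ' → Prog R Γ
  | .act f => .act fun t r =>
      match e.regInv r with
      | some r' => e.op (f (e.tops t) r')
      | none => .nop
  | .seq p q => .seq (p.emb e) (q.emb e)
  | .branch f => .branch fun t => (f (e.tops t)).emb e
  | .loop c p => .loop (fun t => c (e.tops t)) (p.emb e)

theorem Runs.emb_put {R' R Γ' Γ : Type} (e : Emb R' R Γ' Γ) {p : Prog R' Γ'}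
    {s s' : Store R' Γ'} {c : ℕ} (h : Runs p s s' c) (S : Store R Γ) :
    Runs (p.emb e) (e.put S s) (e.put S s') c := by
  induction h with
  | act f s =>
    refine (Runs.act _ _).conv ?_ le_rfl
    funext r
    simp only [Emb.tops_put]
    unfold Emb.put
    cases h : e.regInv r with
    | none => rfl
    | some r' => exact e.op_app _ _
  | seq _ _ ih1 ih2 => exact Runs.seq ih1 ih2
  | @branch f s s' c _ ih =>
    refine Runs.branch (f := fun t => (f (e.tops t)).emb e) ?_
    simp only [Emb.tops_put]
    exact ih
  | loop_stop ht =>
    refine Runs.loop_stop ?_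
    simp only [Emb.tops_put]
    exact ht
  | loop_step ht _ _ ih1 ih2 =>
    refine Runs.loop_step ?_ ih1 ih2
    simp only [Emb.tops_put]
    exact ht
  | weaken _ hc ih => exact ih.weaken hc

/-- Use of a small program inside a large store. -/
theorem Runs.emb {R' R Γ' Γ : Type} (e : Emb R' R Γ' Γ) {p : Prog R' Γ'}
    {s s' : Store R' Γ'} {c : ℕ} (h : Runs p s s' c) {S S' : Store R Γ}
    (hS : ∀ r, S (e.reg r) = (s r).map e.sym)
    (hS' : ∀ r, S' (e.reg r) = (s' r).map e.sym)
    (hf : ∀ r, e.regInv r = none → S' r = S r) : Runs (p.emb e) S S' c := by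
  have := h.emb_put e S
  rw [e.put_self hS, e.put_eq hS' hf] at this
  exact this

end Vale.Agent.P338
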