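import Vale.Agent.P338.H933.Analysis

/-!
# P338, stage 2: from the sharp transfer inequality to regular time bounds
-/

namespace Vale.Agent.P338

/-- The sharp transfer inequality: one size `C * N + s` for `O(1)` calls and one size
`W N = O(log N)`, odd, for `O(N / log N)` calls of `A`. -/
def TransferD (C : ℕ) : Prop :=
  ∀ A : Machine, Multiplies A → ∀ s : ℕ, ∃ B : Machine, TransposesAll B ∧
    ∃ (K : ℝ) (W : ℕ → ℕ),
      (∀ N : ℕ, 3 ≤ N → 1 ≤ W N ∧ W N % 2 = 1 ∧ (W N : ℝ) ≤ K * Real.log N) ∧
      ∀ N : ℕ, 3 ≤ N → (wordTime B N : ℝ) ≤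
        K * (mulTime A (C * N + s) + N / Real.log N * mulTime A (W N) +
          N * Real.log (Real.log N))

theorem log_pos_of_three_le {N : ℕ} (hN : 3 ≤ N) : 1 < Real.log N := by
  have h3 : (3 : ℝ) ≤ N := by exact_mod_cast hN
  have : Real.exp 1 < N := lt_of_lt_of_le (by
    have := Real.exp_one_lt_d9
    linarith) h3
  rw [Real.lt_log_iff_exp_lt (by linarith)]
  exact this

/-- If `T_A(n) ≤ M(n)` with `M(n)/n` nondecreasing, then some machine transposes in time
`O(M(C N + s) + N log log N)`. -/
theorem regular_of_transferD {C : ℕ} (hC : 1 ≤ C) (h : TransferD C) {A : Machine}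
    (hA : Multiplies A) (M : ℕ → ℝ) (hM : ∀ n, 1 ≤ n → (mulTime A n : ℝ) ≤ M n)
    (hmono : ∀ m n : ℕ, 1 ≤ m → m ≤ n → M m / m ≤ M n / n) (s : ℕ) :
    ∃ B : Machine, TransposesAll B ∧ ∃ K : ℝ, ∀ N : ℕ, 3 ≤ N →
      (wordTime B N : ℝ) ≤ K * (M (C * N + s) + N * Real.log (Real.log N)) := by
  obtain ⟨B, hB, K, W, hW, hK⟩ := h A hA s
  refine ⟨B, hB, ?_⟩
  set K₁ : ℝ := max K 1 with hK₁
  have hK₁1 : 1 ≤ K₁ := le_max_right _ _
  have hKK₁ : K ≤ K₁ := le_max_left _ _
  -- from some point on `K₁ log N ≤ N`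
  obtain ⟨N₁, hN₁⟩ : ∃ N₁ : ℕ, ∀ N : ℕ, N₁ ≤ N → K₁ * Real.log N ≤ N := by
    have h1 := (Real.isLittleO_log_id_atTop.comp_tendsto
      (tendsto_natCast_atTop_atTop (R := ℝ)))
    rw [Asymptotics.isLittleO_iff] at h1
    have h2 := h1 (c := 1 / K₁) (by positivity)
    rw [Filter.eventually_atTop] at h2
    obtain ⟨N₁, hN₁⟩ := h2
    refine ⟨max N₁ 1, fun N hN => ?_⟩
    have h3 := hN₁ N (le_trans (le_max_left _ _) hN)
    simp only [Function.comp, id] at h3
    rw [Real.norm_of_nonneg (Real.log_natCast_nonneg N),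
      Real.norm_of_nonneg (Nat.cast_nonneg N)] at h3
    calc K₁ * Real.log N ≤ K₁ * (1 / K₁ * N) :=
          mul_le_mul_of_nonneg_left h3 (by positivity)
      _ = N := by field_simp
  -- the finitely many small `N`
  obtain ⟨K₂, hK₂⟩ : ∃ K₂ : ℕ, ∀ N < N₁, wordTime B N ≤ K₂ :=
    ⟨(Finset.range N₁).sup (fun N => wordTime B N), fun N hN =>
      Finset.le_sup (f := fun N => wordTime B N) (Finset.mem_range.mpr hN)⟩
  refine ⟨K₁ * (1 + K₁) + K₂, fun N hN => ?_⟩
  have hlog := log_pos_of_three_le hN
  have hll : 0 < Real.log (Real.log N) := Real.log_pos hlog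
  have hN3 : (3 : ℝ) ≤ N := by exact_mod_cast hN
  have hNpos : (0 : ℝ) < N := by linarith
  have hsize : 1 ≤ C * N + s := by nlinarith
  have hM1 : (N : ℝ) ≤ M (C * N + s) := by
    refine le_trans ?_ (hM _ hsize)
    have : N ≤ mulTime A (C * N + s) := le_trans (by nlinarith) (hA.le_mulTime (C * N + s))
    exact_mod_cast this
  have hMpos : 0 < M (C * N + s) := by linarith
  rcases lt_or_ge N N₁ with hlt | hge
  · have h1 : (wordTime B N : ℝ) ≤ K₂ := by exact_mod_cast hK₂ N hlt
    have h2 : (1 : ℝ) ≤ M (C * N + s) + N * Real.log (Real.log N) := by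
      have : 0 ≤ N * Real.log (Real.log N) := by positivity
      linarith
    calc (wordTime B N : ℝ) ≤ K₂ * 1 := by linarith
      _ ≤ K₂ * (M (C * N + s) + N * Real.log (Real.log N)) :=
          mul_le_mul_of_nonneg_left h2 (Nat.cast_nonneg _)
      _ ≤ (K₁ * (1 + K₁) + K₂) * (M (C * N + s) + N * Real.log (Real.log N)) := by
          apply mul_le_mul_of_nonneg_right _ (by linarith)
          have : 0 ≤ K₁ * (1 + K₁) := by positivity
          linarith
  · obtain ⟨hW1, -, hW2⟩ := hW N hN
    have hWpos : (0 : ℝ) < W N := by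
      have : 0 < W N := hW1
      exact_mod_cast this
    have hW3 : (W N : ℝ) ≤ K₁ * Real.log N :=
      hW2.trans (mul_le_mul_of_nonneg_right hKK₁ (by linarith))
    have hWN : W N ≤ N := by
      have : (W N : ℝ) ≤ N := hW3.trans (hN₁ N hge)
      exact_mod_cast this
    have hWle : W N ≤ C * N + s := le_trans hWN (by nlinarith)
    have hsr : (0 : ℝ) < ((C * N + s : ℕ) : ℝ) := by exact_mod_cast hsize
    -- `M (W N) ≤ W N * M (C N + s) / N`
    have h1 : M (W N) / (W N : ℝ) ≤ M (C * N + s) / N := by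
      refine (hmono (W N) (C * N + s) hW1 hWle).trans ?_
      apply div_le_div_of_nonneg_left hMpos.le hNpos
      have : N ≤ C * N + s := by nlinarith
      exact_mod_cast this
    have h2 : (mulTime A (W N) : ℝ) ≤ W N * (M (C * N + s) / N) := by
      refine (hM _ hW1).trans ?_
      rw [div_le_iff₀ hWpos] at h1
      linarith
    have h3 : N / Real.log N * mulTime A (W N) ≤ K₁ * M (C * N + s) := by
      calc N / Real.log N * mulTime A (W N)
          ≤ N / Real.log N * ((K₁ * Real.log N) * (M (C * N + s) / N)) := by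
            apply mul_le_mul_of_nonneg_left _ (by positivity)
            exact h2.trans (mul_le_mul_of_nonneg_right hW3 (by positivity))
        _ = K₁ * M (C * N + s) := by
            have : Real.log N ≠ 0 := by linarith
            field_simp
    have h4 : (mulTime A (C * N + s) : ℝ) ≤ M (C * N + s) := hM _ hsize
    have h5 := hK N hN
    have hX : 0 ≤ (mulTime A (C * N + s) : ℝ) + N / Real.log N * mulTime A (W N) +
        N * Real.log (Real.log N) := by
      have : 0 ≤ N / Real.log N := by positivity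
      positivity
    have hlp : 0 ≤ N * Real.log (Real.log N) := by positivity
    calc (wordTime B N : ℝ) ≤ _ := h5
      _ ≤ K₁ * (mulTime A (C * N + s) + N / Real.log N * mulTime A (W N) +
          N * Real.log (Real.log N)) := mul_le_mul_of_nonneg_right hKK₁ hX
      _ ≤ K₁ * (M (C * N + s) + K₁ * M (C * N + s) + N * Real.log (Real.log N)) := by
          apply mul_le_mul_of_nonneg_left _ (by positivity)
          linarith
      _ ≤ K₁ * (1 + K₁) * (M (C * N + s) + N * Real.log (Real.log N)) := by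
          have : K₁ * (M (C * N + s) + K₁ * M (C * N + s) + N * Real.log (Real.log N))
            = K₁ * (1 + K₁) * M (C * N + s) + K₁ * (N * Real.log (Real.log N)) := by ring
          rw [this]
          have e2 : K₁ * (N * Real.log (Real.log N)) ≤
              K₁ * (1 + K₁) * (N * Real.log (Real.log N)) := by
            apply mul_le_mul_of_nonneg_right _ hlp
            nlinarith
          linarith
      _ ≤ (K₁ * (1 + K₁) + K₂) * (M (C * N + s) + N * Real.log (Real.log N)) := by
          apply mul_le_mul_of_nonneg_right _ (by linarith)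
          have : (0 : ℝ) ≤ K₂ := Nat.cast_nonneg _
          linarith

end Vale.Agent.P338
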