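import Vale.Agent.P338.H933.Analysis
import Vale.Agent.P338.H51.Machine

/-!
# P338: from a family of stack programs to the transfer inequality

`transfer_of_programs`: it suffices to write, for every multiplying machine `A` and every `s`, a
stack program which transposes, with a cost bound in natural numbers.
-/

namespace Vale.Agent.P338

/-- The cost bound wanted for the program built from `A` and `s` (everything in `ℕ`). -/
def CostBound (A : Machine) (C s : ℕ) (cost : ℕ → ℕ) : Prop :=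
  ∃ K : ℕ, ∀ N : ℕ, 2 ≤ N → ∀ u : ℕ,
    2 ^ u * cost N ≤ K * (2 ^ u * ((u + 1) * mulTime A (C * N + s)) + N * Nat.log 2 N)

/-- What has to be programmed: registers `R`, symbols `Γ`, a program `P` with input stack `rin`
(reversed input) and output stack `rout`. -/
def HasProgram (A : Machine) (C s : ℕ) : Prop :=
  ∃ (R Γ : Type) (_ : Fintype R) (_ : DecidableEq R) (_ : Finite Γ) (P : Prog R Γ)
    (rin rout : R) (inj : Bool → Γ) (dec : Γ → Bool) (cost : ℕ → ℕ),
    (∀ b, dec (inj b) = b) ∧ CostBound A C s cost ∧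
    ∀ v : List Bool, v ≠ [] → ∃ s' : Store R Γ,
      Runs P (Function.update (fun _ => []) rin ((v.map inj).reverse)) s' (cost v.length) ∧
      s' rout = (transposeWord (Nat.sqrt v.length) v).map inj

theorem natLog_le_two_mul_log (N : ℕ) : (Nat.log 2 N : ℝ) ≤ 2 * Real.log N := by
  rcases Nat.eq_zero_or_pos N with rfl | hN
  · simp
  have h1 : 2 ^ Nat.log 2 N ≤ N := Nat.pow_log_le_self 2 (by omega)
  have h2 : (2 : ℝ) ^ Nat.log 2 N ≤ N := by exact_mod_cast h1
  have h3 : (Nat.log 2 N : ℝ) * Real.log 2 ≤ Real.log N := by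
    rw [← Real.log_pow]
    exact Real.log_le_log (by positivity) h2
  have h4 : (1 / 2 : ℝ) ≤ Real.log 2 := by
    have := Real.log_two_gt_d9
    linarith
  have h5 : (0 : ℝ) ≤ (Nat.log 2 N : ℝ) := Nat.cast_nonneg _
  nlinarith

theorem transfer_of_programs {C : ℕ} (hC : 1 ≤ C)
    (h : ∀ A : Machine, Multiplies A → ∀ s : ℕ, HasProgram A C s) : Transfer C := by
  intro A hA s
  obtain ⟨R, Γ, _, _, _, P, rin, rout, inj, dec, cost, hdec, ⟨K, hK⟩, hP⟩ := h A hA s
  obtain ⟨h1, h2⟩ := progMachine_transposesAll P rin rout inj dec hdec cost hP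
  refine ⟨_, h1, 4 * K + 6, fun N hN u => ?_⟩
  have h3 := h2 N (by omega)
  have h4 := hK N hN u
  have h5 : N ≤ mulTime A (C * N + s) := by
    refine le_trans ?_ (hA.le_mulTime (C * N + s))
    nlinarith
  set W : ℕ := wordTime (progMachine P rin rout inj dec) N with hW
  set T : ℕ := mulTime A (C * N + s) with hT
  have h3' : (W : ℝ) ≤ 2 * (cost N + 2 * N + 1) := by exact_mod_cast h3
  have h4' : (2 : ℝ) ^ u * cost N ≤ K * (2 ^ u * ((u + 1) * T) + N * Nat.log 2 N) := by
    exact_mod_cast h4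
  have h5' : (N : ℝ) ≤ T := by exact_mod_cast h5
  have hN' : (2 : ℝ) ≤ N := by exact_mod_cast hN
  have h2u : (0 : ℝ) < 2 ^ u := by positivity
  have h6 : (cost N : ℝ) ≤ K * ((u + 1) * T + N * Nat.log 2 N / 2 ^ u) := by
    have e : (K : ℝ) * ((u + 1) * T + N * Nat.log 2 N / 2 ^ u)
        = (K * (2 ^ u * ((u + 1) * T) + N * Nat.log 2 N)) / 2 ^ u := by
      field_simp
    rw [e, le_div_iff₀ h2u]
    linarith
  have hlog := natLog_le_two_mul_log N
  have hl0 : 0 ≤ Real.log N := Real.log_natCast_nonneg N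
  have h7 : (N : ℝ) * Nat.log 2 N / 2 ^ u ≤ 2 * (N * Real.log N / 2 ^ u) := by
    rw [← mul_div_assoc]
    apply div_le_div_of_nonneg_right _ h2u.le
    nlinarith
  have hT0 : (0 : ℝ) ≤ T := Nat.cast_nonneg _
  have hu0 : (0 : ℝ) ≤ u := Nat.cast_nonneg _
  have hK0 : (0 : ℝ) ≤ K := Nat.cast_nonneg _
  have h8 : (0 : ℝ) ≤ N * Real.log N / 2 ^ u := by positivity
  have h9 : (T : ℝ) ≤ (u + 1) * T := by nlinarith
  have h10 : (cost N : ℝ) ≤ K * ((u + 1) * T + 2 * (N * Real.log N / 2 ^ u)) :=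
    h6.trans (mul_le_mul_of_nonneg_left (by linarith) hK0)
  have h11 : (K : ℝ) * ((u + 1) * T + 2 * (N * Real.log N / 2 ^ u))
      ≤ 2 * K * ((u + 1) * T + N * Real.log N / 2 ^ u) := by
    have : 0 ≤ (K : ℝ) * ((u + 1) * T) := by positivity
    nlinarith
  calc (W : ℝ) ≤ 2 * (cost N + 2 * N + 1) := h3'
    _ ≤ 2 * (2 * K * ((u + 1) * T + N * Real.log N / 2 ^ u)) + 6 * N := by nlinarith
    _ ≤ 2 * (2 * K * ((u + 1) * T + N * Real.log N / 2 ^ u)) + 6 * ((u + 1) * T) := by
        nlinarith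
    _ ≤ (4 * K + 6) * ((u + 1) * T + N * Real.log N / 2 ^ u) := by nlinarith

end Vale.Agent.P338
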