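import Vale.Agent.P338.Lang
import Vale.Agent.P338.CoreSpec

/-!
# The ruler `m = C * N + s`

`linRuler r q t C s` pushes `C * |r| + s` symbols `false` on `q`, using the empty stack `t`.
-/

namespace Vale.Agent.P338

namespace H933

variable {R : Type} [DecidableEq R]

/-- push `n` zeros on `q` -/
def pushes (q : R) : ℕ → Prog R Bool
  | 0 => .nop
  | n + 1 => .seq (.push q false) (pushes q n)

theorem runs_pushes (q : R) (n : ℕ) (S : Store R Bool) :
    Runs (pushes q n) S (Function.update S q (zer n ++ S q)) (n + 1) := by
  induction n generalizing S with
  | zero =>
    refine (Runs.nop S).conv ?_ le_rfl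
    simp [zer]
  | succ n ih =>
    refine Runs.seq' (Runs.push q false S) (ih _) ?_ |>.conv ?_ le_rfl
    · omega
    · simp only [Function.update_self, Function.update_idem]
      congr 1
      simp [zer, List.replicate_succ']

/-- push `C * |r| + s` zeros on `q` -/
def linRuler (r q t : R) (C s : ℕ) : Prog R Bool :=
  .seq (.whileNE r (.seq (.mv r t) (pushes q C))) (.seq (.flip t r) (pushes q s))

theorem runs_linRuler {r q t : R} (hrq : r ≠ q) (hrt : r ≠ t) (hqt : q ≠ t) (C s : ℕ)
    (S : Store R Bool) (ht : S t = []) :
    Runs (linRuler r q t C s) S (Function.update S q (zer (C * (S r).length + s) ++ S q))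
      ((C + 5) * (S r).length + s + 4) := by
  have key : ∀ (l : List Bool) (S : Store R Bool), S r = l →
      Runs (.whileNE r (.seq (.mv r t) (pushes q C))) S
        (Function.update (Function.update (Function.update S r []) t (l.reverse ++ S t)) q
          (zer (C * l.length) ++ S q)) ((C + 3) * l.length + 1) := by
    intro l
    induction l with
    | nil =>
      intro S hS
      refine (Runs.whileNE_nil hS).conv ?_ (by simp)
      funext x
      by_cases h1 : x = q
      · subst h1; simp [zer]
      · by_cases h2 : x = t
        · subst h2; simp [h1]
        · by_cases h3 : x = r
          · subst h3; simp [h1, h2, hS]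
          · simp [h1, h2, h3]
    | cons a l ih =>
      intro S hS
      have h1 := Runs.mv_cons hrt hS
      have h2 := runs_pushes q C (Function.update (Function.update S r l) t (a :: S t))
      have h3 := ih (Function.update (Function.update (Function.update S r l) t (a :: S t)) q
        (zer C ++ (Function.update (Function.update S r l) t (a :: S t)) q))
        (by simp [hrq, hrt])
      refine (Runs.whileNE_cons hS (h1.seq h2) h3).conv ?_ ?_
      · clear h1 h2 h3
        funext x
        by_cases e1 : x = q
        · subst e1
          simp only [Function.update_self, List.length_cons]
          rw [Function.update_of_ne hqt, Function.update_of_ne hrq.symm, ← List.append_assoc]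
          congr 1
          simp only [zer, List.replicate_append_replicate]
          congr 1
        · by_cases e2 : x = t
          · subst e2; simp [e1]
          · by_cases e3 : x = r
            · subst e3; simp [e1, e2]
            · simp [e1, e2, e3]
      · simp only [List.length_cons]; ring_nf; omega
  have h1 := key (S r) S rfl
  have h2 := Runs.flip hrt.symm (Function.update (Function.update (Function.update S r []) t
    ((S r).reverse ++ S t)) q (zer (C * (S r).length) ++ S q))
  have h3 := runs_pushes q s (Function.update (Function.update (Function.update
    (Function.update (Function.update S r []) t ((S r).reverse ++ S t)) q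
      (zer (C * (S r).length) ++ S q)) t []) r
      (((Function.update (Function.update (Function.update S r []) t
        ((S r).reverse ++ S t)) q (zer (C * (S r).length) ++ S q)) t).reverse ++
      (Function.update (Function.update (Function.update S r []) t
        ((S r).reverse ++ S t)) q (zer (C * (S r).length) ++ S q)) r))
  refine (h1.seq (h2.seq h3)).conv ?_ ?_
  · clear h1 h2 h3
    funext x
    by_cases e1 : x = q
    · subst e1
      simp only [Function.update_self]
      rw [Function.update_of_ne hrq.symm, Function.update_of_ne hqt, Function.update_self,
        ← List.append_assoc]
      congr 1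
      simp only [zer, List.replicate_append_replicate]
      congr 1; omega
    · by_cases e2 : x = t
      · subst e2; simp [e1, ht, hrt.symm]
      · by_cases e3 : x = r
        · subst e3; simp [e1, ht, hqt.symm, hrt]
        · simp [e1, e2, e3]
  · simp [ht, hqt.symm]
    ring_nf; omega

end H933

end Vale.Agent.P338
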