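import Vale.Agent.P338.H933.MainPrep
import Vale.Agent.P338.H51.Outer
import Vale.Agent.P338.H763.Rot
import Vale.Agent.P338.H463.CallReg

/-!
# P338: the main program, for an abstract level loop
-/

namespace Vale.Agent.P338

open H763

/-- exponent of the padded size -/
def LL (N : ℕ) : ℕ := Nat.clog 2 (Nat.sqrt N)

/-- padded size -/
def nn (N : ℕ) : ℕ := 2 ^ LL N

/-- What is needed from the level loop. -/
def LevelsOK (A : Machine) (s : ℕ) : Prop :=
  ∃ (P : Prog (Reg ⊕ Sim.AReg A) (Bool ⊕ Sim.ASym A)) (lev : ℕ → ℕ),
    CostBound A 128 s lev ∧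
    ∀ N : ℕ, 1 ≤ N → ∀ X : List Bool, X.length = nn N * nn N →
      Runs P (liftStore (outerSt s N X) fun _ => [])
        (liftStore (outerSt s N (E.shear (nn N) 0 (LL N) X)) fun _ => []) (lev N)

/-- The list theorem: rotate, shear, rotate = transpose. -/
def ListOK : Prop :=
  ∀ (N : ℕ), 1 ≤ N → ∀ w : List Bool, w.length = N →
    H51.unpadL (Nat.sqrt N) (nn N)
      (E.rot2 (nn N) (E.shear (nn N) 0 (LL N) (E.rot1 (nn N) (H51.padL (Nat.sqrt N) (nn N) w))))
    = transposeWord (Nat.sqrt N) w

theorem update_outerSt_X (s N : ℕ) (X Y : List Bool) :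
    Function.update (outerSt s N X) .X Y = outerSt s N Y := by
  funext r
  cases r <;> simp [outerSt, Function.update]

theorem len_seg {X : List Bool} {a n : ℕ} (h : a + n ≤ X.length) :
    ((X.drop a).take n).length = n := by
  rw [List.length_take, List.length_drop]
  omega

theorem length_rot1 {n : ℕ} {X : List Bool} (h : X.length = n * n) :
    (E.rot1 n X).length = n * n := by
  unfold E.rot1 cat
  rw [List.length_flatMap]
  have : ∀ r ∈ List.range n, (E.rotR (n - r) ((X.drop ((n - 1 - r) * n)).take n)).length = n := by
    intro r hr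
    have hr' := List.mem_range.mp hr
    have h2 : (n - 1 - r) * n + n ≤ n * n := by
      calc (n - 1 - r) * n + n = (n - 1 - r + 1) * n := by ring
        _ ≤ n * n := Nat.mul_le_mul_right n (by omega)
    have h3 := len_seg (X := X) (a := (n - 1 - r) * n) (n := n) (by omega)
    generalize (X.drop ((n - 1 - r) * n)).take n = S at h3
    unfold E.rotR
    rw [List.length_append, List.length_drop, List.length_take]
    omega
  rw [List.map_congr_left this]
  simp

theorem length_shear (n lo hi : ℕ) (X : List Bool) : (E.shear n lo hi X).length = n * n := by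
  unfold E.shear cat
  rw [List.length_flatMap]
  simp

theorem length_rot2 {n : ℕ} {X : List Bool} (h : X.length = n * n) :
    (E.rot2 n X).length = n * n := by
  unfold E.rot2 cat
  rw [List.length_flatMap]
  have : ∀ j ∈ List.range n, (((X.drop (j * n)).take n).drop (j + 1) ++
      ((X.drop (j * n)).take n).take (j + 1)).length = n := by
    intro j hj
    have hj' := List.mem_range.mp hj
    have h2 : j * n + n ≤ n * n := by
      calc j * n + n = (j + 1) * n := by ring
        _ ≤ n * n := Nat.mul_le_mul_right n (by omega)
    have h3 := len_seg (X := X) (a := j * n) (n := n) (by omega)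
    generalize (X.drop (j * n)).take n = S at h3
    rw [List.length_append, List.length_drop, List.length_take]
    omega
  rw [List.map_congr_left this]
  simp

theorem length_padL {n0 n : ℕ} {w : List Bool} (h : n0 ≤ n) (hw : n0 * n0 ≤ w.length) :
    (H51.padL n0 n w).length = n * n := by
  rw [H51.padL_eq_matL h hw]
  exact matL_length _ _

/-- **The main program.** -/
theorem hasProgram_of_levels {A : Machine} (hA : Multiplies A) {s : ℕ} (hlev : LevelsOK A s)
    (hlist : ListOK) : HasProgram A 128 s := by
  classical
  obtain ⟨P, lev, hcost, hP⟩ := hlev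
  refine ⟨Reg ⊕ Sim.AReg A, Bool ⊕ Sim.ASym A, Fintype.ofFinite _, inferInstance, inferInstance,
    .seq ((outerIn s).lift _ _) (.seq (ROT1.lift _ _) (.seq P (.seq (ROT2.lift _ _)
      (outerOut.lift _ _)))), Sum.inl .inp, Sum.inl .outp, Sum.inl,
      Sum.elim id (fun _ => false), fun N => lev N + (2000 * N + s + 3000), fun _ => rfl, ?_, ?_⟩
  · refine hcost.add_linear hA (by norm_num) (g := fun N => 2000 * N + s + 3000)
      (c := 2000 + s + 3000) (fun N hN => ?_) (fun N _ => le_rfl)
    nlinarith
  · intro v hv
    have hN : 1 ≤ v.length := List.length_pos_iff.mpr hv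
    set N := v.length with hNdef
    set n := nn N with hn
    have hsq : Nat.sqrt N * Nat.sqrt N ≤ v.length := Nat.sqrt_le N
    have hn4 : n * n ≤ 4 * N := outer_sq_le hN
    have hnn : n ≤ n * n := by
      have : 1 ≤ n := Nat.one_le_two_pow
      nlinarith
    -- the successive data
    set X0 := H51.padL (Nat.sqrt N) n v with hX0
    set X1 := E.rot1 n X0 with hX1
    set X2 := E.shear n 0 (LL N) X1 with hX2
    set X3 := E.rot2 n X2 with hX3
    have l0 : X0.length = n * n := length_padL (sqrt_le_outer N) hsq
    have l1 : X1.length = n * n := length_rot1 l0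
    have l2 : X2.length = n * n := length_shear _ _ _ _
    have l3 : X3.length = n * n := length_rot2 l2
    have r0 : Runs (outerIn s) (Function.update (fun _ => []) .inp v.reverse)
        (outerSt s N X0) (1000 * N + s + 1000) := outerIn_runs s v
    have r1 : Runs ROT1 (outerSt s N X0) (outerSt s N X1) (11 * (n * n) + 10 * n + 4) := by
      have := ROT1_runs (s := outerSt s N X0) (n := n) l0 rfl rfl rfl rfl rfl rfl
      rw [update_outerSt_X] at this
      exact this
    have r2 := hP N hN X1 l1
    have r3 : Runs ROT2 (outerSt s N X2) (outerSt s N X3) (11 * (n * n) + 10 * n + 4) := by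
      have := ROT2_runs (s := outerSt s N X2) (n := n) l2 rfl rfl rfl rfl rfl rfl
      rw [update_outerSt_X] at this
      exact this
    have r4 := outerOut_runs s N l3 hN
    have hall := ((r0.lift (Y := Sim.AReg A) (Z := Sim.ASym A) fun _ => []).seq
      ((r1.lift fun _ => []).seq (r2.seq ((r3.lift fun _ => []).seq (r4.lift fun _ => [])))))
    rw [← init_lift] at hall
    refine ⟨_, hall.weaken ?_, ?_⟩
    · show _ ≤ lev N + (2000 * N + s + 3000)
      omega
    · have h1 := hlist N hN v rfl
      show (Function.update (outerSt s N []) .outp (H51.unpadL (Nat.sqrt N) n X3) .outp).map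
        Sum.inl = _
      rw [Function.update_self]
      exact congrArg (List.map Sum.inl) h1

end Vale.Agent.P338
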