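import Vale.Agent.P338.H933.Mu
import Vale.Agent.P338.H51.MainD2

/-!
# Stage 2: the sharper transfer inequality
-/

namespace Vale.Agent.P338

open Vale.Agent.P338

theorem muSpec : H51.MuSpec Num.MU 200 :=
  fun v p W b h1 _ hP hb hW hrb hp hmu hT3 hDe =>
    Num.MU_runs v p W b h1 hP hb hW hrb hp hmu hT3 hDe

/-- **The sharper transfer inequality.** -/
theorem transferD : TransferD H51.CD := transferD_of_mu muSpec

end Vale.Agent.P338
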