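import Vale.Agent.P338.H933.MainGlue
import Vale.Agent.P338.H932.LevelsReg
import Vale.Agent.P338.H932.Cost
import Vale.Agent.P338.H666.SelectReg

/-!
# P338: the level loop inside the main program
-/

namespace Vale.Agent.P338

open H932

/-- What is needed from the fast operation. -/
def FastOK (A : Machine) : Prop :=
  ∃ (fastOp : Prog (Reg ⊕ Sim.AReg A) (Bool ⊕ Sim.ASym A)) (K : ℕ), ∀ L m : ℕ,
    26 * (2 ^ L * 2 ^ L) ≤ m →
      FastSpec fastOp L m (fun a => K * min (mulTime A m + m) (m * a))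

theorem listOK : ListOK := by
  intro N hN w hw
  have hsq : Nat.sqrt N * Nat.sqrt N ≤ w.length := hw ▸ Nat.sqrt_le N
  have hle : Nat.sqrt N ≤ nn N := sqrt_le_outer N
  rw [H51.padL_eq_matL hle hsq, rot2_shear_rot1 (rfl : nn N = 2 ^ LL N)]
  exact H51.unpadL_transpose hle w fun i j _ _ => rfl

theorem clean_outerSt (s N : ℕ) (X : List Bool) : Clean (outerSt s N X) := by
  intro r hr
  cases r <;> first | rfl | (simp [Reg.work] at hr)

theorem LL_le {N : ℕ} (hN : 1 ≤ N) : LL N ≤ Nat.log 2 N + 1 := by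
  have h0 : 1 ≤ Nat.sqrt N := Nat.sqrt_pos.2 hN
  unfold LL
  rcases Nat.lt_or_ge 1 (Nat.sqrt N) with h | h
  · have h1 := Nat.pow_pred_clog_lt_self (b := 2) (by norm_num) h
    have h2 : 2 ^ (Nat.clog 2 (Nat.sqrt N)).pred ≤ N :=
      h1.le.trans (Nat.sqrt_le_self N)
    have h3 := Nat.le_log_of_pow_le (b := 2) (by norm_num) h2
    rw [Nat.pred_eq_sub_one] at h3
    omega
  · rw [Nat.clog_of_right_le_one h]
    omega

theorem levelsOK_of_fast {A : Machine} (hA : Multiplies A) (s : ℕ) (hf : FastOK A) :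
    LevelsOK A s := by
  classical
  obtain ⟨fastOp, K, hK⟩ := hf
  refine ⟨levels fastOp H666.BITOP, fun N =>
    levelCost (fun a => K * min (mulTime A (128 * N + s) + (128 * N + s)) ((128 * N + s) * a)
      + 19 * 2 ^ LL N) (80 * (128 * N + s) + 31 * (2 ^ LL N * 2 ^ LL N) + 4) (20 * 2 ^ LL N)
      (LL N) + 4 * LL N + 2, ?_, fun N hN X hX => ?_⟩
  · refine levels_costBound hA (K := K + 80) (by norm_num) _ fun N hN => ?_
    refine ⟨LL N, 80 * (128 * N + s), fun a =>
      K * min (mulTime A (128 * N + s) + (128 * N + s)) ((128 * N + s) * a), LL_le (by omega),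
      ?_, fun a _ => Nat.mul_le_mul_right _ (by omega), Nat.mul_le_mul_right _ (by omega),
      Nat.le_add_right _ _⟩
    have := outer_sq_le (N := N) (by omega)
    have h2 : 2 ^ LL N * 2 ^ LL N ≤ 4 * N := this
    omega
  · have h4 : 2 ^ LL N * 2 ^ LL N ≤ 4 * N := outer_sq_le hN
    have hfs := hK (LL N) (128 * N + s) (by omega)
    have hbs : BitSpec H666.BITOP (LL N) (80 * (128 * N + s)) := by
      intro S t ht hc hn h2t h2tn hXl
      exact H666.hBITOP S (LL N) t (128 * N + s) ht (by omega) hc hn h2t h2tn hXl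
    have hlev : LevOk (outerSt s N X) (LL N) (128 * N + s) :=
      ⟨clean_outerSt s N X, rfl, rfl, rfl, rfl, rfl, rfl, rfl⟩
    have h := levels_runs hfs hbs (outerSt s N X) hlev rfl ⟨rfl, rfl, rfl, rfl⟩ hX
    rw [update_outerSt_X] at h
    exact h

theorem transfer_of_fast (h : ∀ A : Machine, Multiplies A → FastOK A) : Transfer 128 :=
  transfer_of_programs (by norm_num) fun A hA s =>
    hasProgram_of_levels hA (levelsOK_of_fast hA s (h A hA)) listOK

end Vale.Agent.P338
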