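import Vale.Agent.P338.H933.Basic

/-!
# P338: from the transfer inequality to the conjectures
-/

namespace Vale.Agent.P338

/-- The transfer inequality with multiplications of size exactly `C * N + s`. -/
def Transfer (C : ℕ) : Prop :=
  ∀ A : Machine, Multiplies A → ∀ s : ℕ, ∃ B : Machine, TransposesAll B ∧
    ∃ K : ℝ, ∀ N : ℕ, 2 ≤ N → ∀ u : ℕ,
      (wordTime B N : ℝ) ≤ K * ((u + 1) * mulTime A (C * N + s) + N * Real.log N / 2 ^ u)

theorem lower_of_transfer {T W : ℕ → ℝ} {K c : ℝ} {N₀ : ℕ} {P : ℕ → Prop}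
    (hT : ∀ N, 0 ≤ T N)
    (hK : ∀ N : ℕ, 2 ≤ N → ∀ u : ℕ, W N ≤ K * ((u + 1) * T N + N * Real.log N / 2 ^ u))
    (hc : 0 < c) (hW : ∀ N : ℕ, N₀ ≤ N → P N → c * (N * Real.log N) ≤ W N) :
    ∃ d : ℝ, 0 < d ∧ ∀ N : ℕ, N₀ ≤ N → 2 ≤ N → P N → d * (N * Real.log N) ≤ T N := by
  set K' : ℝ := max K 1 with hK'
  have hK'1 : 1 ≤ K' := le_max_right _ _
  have hK'K : K ≤ K' := le_max_left _ _
  obtain ⟨u, hu⟩ := pow_unbounded_of_one_lt (2 * K' / c) (one_lt_two)
  have h2u : (0 : ℝ) < 2 ^ u := by positivity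
  have hu' : K' / 2 ^ u ≤ c / 2 := by
    rw [div_le_div_iff₀ h2u (by norm_num)]
    rw [div_lt_iff₀ hc] at hu
    nlinarith
  refine ⟨c / (2 * K' * (u + 1)), by positivity, fun N hN hN2 hP => ?_⟩
  have hlog : 0 ≤ Real.log N := Real.log_natCast_nonneg N
  have hNl : 0 ≤ (N : ℝ) * Real.log N := mul_nonneg (Nat.cast_nonneg _) hlog
  have h1 := hW N hN hP
  have h2 := hK N hN2 u
  have hX : 0 ≤ ((u : ℝ) + 1) * T N + N * Real.log N / 2 ^ u := by
    have := hT N
    positivity
  have h3 : W N ≤ K' * ((u + 1) * T N + N * Real.log N / 2 ^ u) :=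
    h2.trans (mul_le_mul_of_nonneg_right hK'K hX)
  have h4 : K' * ((u + 1) * T N + N * Real.log N / 2 ^ u)
      = K' * (u + 1) * T N + K' / 2 ^ u * (N * Real.log N) := by ring
  have h5 : K' / 2 ^ u * (N * Real.log N) ≤ c / 2 * (N * Real.log N) :=
    mul_le_mul_of_nonneg_right hu' hNl
  have h6 : c / 2 * (N * Real.log N) ≤ K' * (u + 1) * T N := by linarith
  have hpos : 0 < K' * ((u : ℝ) + 1) := by positivity
  rw [show c / (2 * K' * (u + 1)) * (N * Real.log N)
    = (c / 2 * (N * Real.log N)) / (K' * (u + 1)) by field_simp]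
  rw [div_le_iff₀ hpos]
  linarith

/-- The exact form of Q1 from the hardness of transposition for all input lengths. -/
theorem multiplicationConjecture_of_allLengths {C : ℕ} (hC : 1 ≤ C) (h : Transfer C)
    (hTr : TranspositionConjectureAllLengths) : MultiplicationConjecture := by
  intro A hA
  -- one constant for all residues `s < S`
  have key : ∀ S : ℕ, ∃ d : ℝ, 0 < d ∧ ∃ N₁ : ℕ, 2 ≤ N₁ ∧ ∀ s < S, ∀ N : ℕ, N₁ ≤ N →
      d * (N * Real.log N) ≤ mulTime A (C * N + s) := by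
    intro S
    induction S with
    | zero => exact ⟨1, one_pos, 2, le_refl _, fun s hs => absurd hs (Nat.not_lt_zero _)⟩
    | succ S ih =>
      obtain ⟨d, hd, N₁, hN₁, ih⟩ := ih
      obtain ⟨B, hB, K, hK⟩ := h A hA S
      obtain ⟨c, hc, N₀, hN₀, hlow⟩ := hTr B hB
      obtain ⟨d', hd', hlow'⟩ := lower_of_transfer (T := fun N => (mulTime A (C * N + S) : ℝ))
        (W := fun N => (wordTime B N : ℝ)) (P := fun _ => True) (fun N => Nat.cast_nonneg _)
        hK hc (fun N hN _ => hlow N hN)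
      refine ⟨min d d', lt_min hd hd', max N₁ N₀, le_max_of_le_left hN₁, fun s hs N hN => ?_⟩
      have hNl : 0 ≤ (N : ℝ) * Real.log N :=
        mul_nonneg (Nat.cast_nonneg _) (Real.log_natCast_nonneg N)
      rcases Nat.lt_succ_iff_lt_or_eq.mp hs with hs' | rfl
      · exact (mul_le_mul_of_nonneg_right (min_le_left _ _) hNl).trans
          (ih s hs' N (le_trans (le_max_left _ _) hN))
      · exact (mul_le_mul_of_nonneg_right (min_le_right _ _) hNl).trans
          (hlow' N (le_trans (le_max_right _ _) hN)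
            (le_trans hN₀ (le_trans (le_max_right _ _) hN)) trivial)
  obtain ⟨d, hd, N₁, hN₁, hlow⟩ := key C
  set N₂ : ℕ := max N₁ (2 * C) with hN₂
  refine ⟨d / (4 * C), by positivity, C * (N₂ + 1) + 2, by omega, fun m hm => ?_⟩
  set N : ℕ := m / C with hN
  have hCpos : 0 < C := hC
  have hNge : N₂ + 1 ≤ N := by
    rw [hN, Nat.le_div_iff_mul_le hCpos]
    calc (N₂ + 1) * C = C * (N₂ + 1) := by ring
      _ ≤ m := by omega
  have hNN₁ : N₁ ≤ N := by
    have := le_max_left N₁ (2 * C)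
    omega
  have hN2C : 2 * C ≤ N := by
    have := le_max_right N₁ (2 * C)
    omega
  have hmod : m % C < C := Nat.mod_lt _ hCpos
  have hm' : C * N + m % C = m := Nat.div_add_mod m C
  have h1 := hlow (m % C) hmod N hNN₁
  rw [hm'] at h1
  have hm2 : m ≤ 2 * C * N := by
    have : m < C * N + C := by omega
    have : C ≤ C * N := Nat.le_mul_of_pos_right C (by omega)
    nlinarith
  have hNpos : (0 : ℝ) < N := by
    have : 0 < N := by omega
    exact_mod_cast this
  have hmpos : (0 : ℝ) < m := by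
    have : 0 < m := by omega
    exact_mod_cast this
  have hlogm : Real.log m ≤ 2 * Real.log N := by
    have e1 : (m : ℝ) ≤ (2 * C) * N := by exact_mod_cast hm2
    have e2 : ((2 * C : ℕ) : ℝ) ≤ N := by exact_mod_cast hN2C
    have e3 : (m : ℝ) ≤ (N : ℝ) * N := by
      refine e1.trans ?_
      have : (2 * (C : ℝ)) ≤ N := by exact_mod_cast hN2C
      exact mul_le_mul_of_nonneg_right this hNpos.le
    calc Real.log m ≤ Real.log ((N : ℝ) * N) := Real.log_le_log hmpos e3
      _ = 2 * Real.log N := by rw [Real.log_mul hNpos.ne' hNpos.ne']; ring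
  have hlogN : 0 ≤ Real.log N := Real.log_natCast_nonneg N
  have hCr : (0 : ℝ) < C := by exact_mod_cast hCpos
  have e1 : (m : ℝ) ≤ (2 * C) * N := by exact_mod_cast hm2
  have h2 : (m : ℝ) * Real.log m ≤ 4 * C * (N * Real.log N) := by
    calc (m : ℝ) * Real.log m ≤ ((2 * C) * N) * (2 * Real.log N) := by
          apply mul_le_mul e1 hlogm (Real.log_natCast_nonneg m) (by positivity)
      _ = 4 * C * (N * Real.log N) := by ring
  calc d / (4 * C) * (m * Real.log m) ≤ d / (4 * C) * (4 * C * (N * Real.log N)) :=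
        mul_le_mul_of_nonneg_left h2 (by positivity)
    _ = d * (N * Real.log N) := by field_simp
    _ ≤ mulTime A m := h1

/-- The square version: a lower bound for `T_A` at all sizes `C n² + s`. -/
theorem lower_at_squares {C : ℕ} (h : Transfer C) (hTr : TranspositionConjecture)
    (A : Machine) (hA : Multiplies A) (s : ℕ) :
    ∃ c : ℝ, 0 < c ∧ ∃ N₀ : ℕ, 2 ≤ N₀ ∧ ∀ n : ℕ, N₀ ≤ n →
      c * ((n : ℝ) ^ 2 * Real.log n) ≤ mulTime A (C * n ^ 2 + s) := by
  obtain ⟨B, hB, K, hK⟩ := h A hA s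
  obtain ⟨c, hc, N₀, hN₀, hlow⟩ := hTr B hB.transposes
  obtain ⟨d, hd, hlow'⟩ := lower_of_transfer (T := fun N => (mulTime A (C * N + s) : ℝ))
    (W := fun N => (wordTime B N : ℝ)) (P := fun N => ∃ n, N₀ ≤ n ∧ N = n * n) (c := c / 2)
    (N₀ := 0) (fun N => Nat.cast_nonneg _) hK (by positivity) (by
      rintro N - ⟨n, hn, rfl⟩
      have h1 := hlow n hn
      have hnpos : (0 : ℝ) < n := by
        have : 0 < n := by omega
        exact_mod_cast this
      have : c / 2 * (((n * n : ℕ) : ℝ) * Real.log ((n * n : ℕ) : ℝ))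
          = c * ((n : ℝ) ^ 2 * Real.log n) := by
        push_cast
        rw [Real.log_mul hnpos.ne' hnpos.ne']
        ring
      rw [this]
      exact h1)
  refine ⟨d, hd, N₀, hN₀, fun n hn => ?_⟩
  have hn2 : 2 ≤ n * n := by nlinarith
  have h2 := hlow' (n * n) (Nat.zero_le _) hn2 ⟨n, hn, rfl⟩
  have hnpos : (0 : ℝ) < n := by
    have : 0 < n := by omega
    exact_mod_cast this
  have hlogn : 0 ≤ Real.log n := Real.log_natCast_nonneg n
  have e1 : d * (((n * n : ℕ) : ℝ) * Real.log ((n * n : ℕ) : ℝ))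
      = 2 * (d * ((n : ℝ) ^ 2 * Real.log n)) := by
    push_cast
    rw [Real.log_mul hnpos.ne' hnpos.ne']
    ring
  rw [e1] at h2
  have e2 : 0 ≤ d * ((n : ℝ) ^ 2 * Real.log n) := by positivity
  have e3 : C * (n * n) + s = C * n ^ 2 + s := by ring
  simp only [e3] at h2
  linarith

/-- Q1 for a machine with nondecreasing running time, from the square version. -/
theorem q1_of_monotone {C : ℕ} (hC : 1 ≤ C) (h : Transfer C) (hTr : TranspositionConjecture)
    (A : Machine) (hA : Multiplies A) (hmono : Monotone (mulTime A)) :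
    ∃ c : ℝ, 0 < c ∧ ∃ N₀ : ℕ, 2 ≤ N₀ ∧ ∀ n : ℕ, N₀ ≤ n →
      c * (n * Real.log n) ≤ mulTime A n := by
  obtain ⟨d, hd, N₁, hN₁, hlow⟩ := lower_at_squares h hTr A hA 0
  set N₂ : ℕ := max N₁ (4 * C) with hN₂
  refine ⟨d / (12 * C), by positivity, C * N₂ ^ 2 + 2, by omega, fun m hm => ?_⟩
  set n : ℕ := Nat.sqrt (m / C) with hn
  have hCpos : 0 < C := hC
  have hnN₂ : N₂ ≤ n := by
    rw [hn, Nat.le_sqrt, Nat.le_div_iff_mul_le hCpos]
    calc N₂ * N₂ * C = C * N₂ ^ 2 := by ring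
      _ ≤ m := by omega
  have hnN₁ : N₁ ≤ n := le_trans (le_max_left _ _) hnN₂
  have hn4C : 4 * C ≤ n := le_trans (le_max_right _ _) hnN₂
  have hle : C * n ^ 2 ≤ m := by
    have h1 : n * n ≤ m / C := Nat.sqrt_le (m / C)
    have h2 : C * (m / C) ≤ m := Nat.mul_div_le m C
    calc C * n ^ 2 = C * (n * n) := by ring
      _ ≤ C * (m / C) := Nat.mul_le_mul_left _ h1
      _ ≤ m := h2
  have hlt : m ≤ 4 * C * n ^ 2 := by
    have h1 : m / C < (n + 1) * (n + 1) := Nat.lt_succ_sqrt (m / C)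
    have h2 : m < C * (m / C) + C := by
      have := Nat.div_add_mod m C
      have := Nat.mod_lt m hCpos
      omega
    have h3 : C * (m / C) + C ≤ C * ((n + 1) * (n + 1)) := by
      have := Nat.mul_le_mul_left C (Nat.succ_le_of_lt h1)
      calc C * (m / C) + C = C * (m / C + 1) := by ring
        _ ≤ _ := this
    have h4 : (n + 1) * (n + 1) ≤ 4 * n ^ 2 := by nlinarith
    calc m ≤ C * ((n + 1) * (n + 1)) := by omega
      _ ≤ C * (4 * n ^ 2) := Nat.mul_le_mul_left _ h4
      _ = 4 * C * n ^ 2 := by ring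
  have h1 := hlow n hnN₁
  rw [Nat.add_zero] at h1
  have h2 : (mulTime A (C * n ^ 2) : ℝ) ≤ mulTime A m := by exact_mod_cast hmono hle
  have hnpos : (0 : ℝ) < n := by
    have : 0 < n := by omega
    exact_mod_cast this
  have hmpos : (0 : ℝ) < m := by
    have : 0 < m := by omega
    exact_mod_cast this
  have hCr : (0 : ℝ) < C := by exact_mod_cast hCpos
  have hlogn : 0 ≤ Real.log n := Real.log_natCast_nonneg n
  have e1 : (m : ℝ) ≤ 4 * C * (n : ℝ) ^ 2 := by exact_mod_cast hlt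
  have e2 : (4 * (C : ℝ)) ≤ n := by exact_mod_cast hn4C
  have hlogm : Real.log m ≤ 3 * Real.log n := by
    have e3 : (m : ℝ) ≤ (n : ℝ) ^ 3 := by
      refine e1.trans ?_
      calc 4 * C * (n : ℝ) ^ 2 ≤ n * (n : ℝ) ^ 2 :=
            mul_le_mul_of_nonneg_right e2 (by positivity)
        _ = (n : ℝ) ^ 3 := by ring
    calc Real.log m ≤ Real.log ((n : ℝ) ^ 3) := Real.log_le_log hmpos e3
      _ = 3 * Real.log n := by rw [Real.log_pow]; norm_num
  have h3 : (m : ℝ) * Real.log m ≤ 12 * C * ((n : ℝ) ^ 2 * Real.log n) := by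
    calc (m : ℝ) * Real.log m ≤ (4 * C * (n : ℝ) ^ 2) * (3 * Real.log n) := by
          apply mul_le_mul e1 hlogm (Real.log_natCast_nonneg m) (by positivity)
      _ = 12 * C * ((n : ℝ) ^ 2 * Real.log n) := by ring
  calc d / (12 * C) * (m * Real.log m)
      ≤ d / (12 * C) * (12 * C * ((n : ℝ) ^ 2 * Real.log n)) :=
        mul_le_mul_of_nonneg_left h3 (by positivity)
    _ = d * ((n : ℝ) ^ 2 * Real.log n) := by field_simp
    _ ≤ mulTime A m := h1.trans h2

end Vale.Agent.P338
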