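import Vale.Agent.P338.H933.Analysis

/-!
# P338: faster multiplication gives faster transposition, at the same sizes
-/

namespace Vale.Agent.P338

open Asymptotics Filter

/-- For every multiplying machine `A` there is a transposing machine `B` with: if
`T_A(n) = o(n log n)` along some filter `l ≤ atTop` (for instance for `n → ∞` in some infinite
set of sizes), then `T_B(N) = o(N log N)` along the same filter. -/
theorem isLittleO_filter (h : Transfer 1) {A : Machine} (hA : Multiplies A) :
    ∃ B : Machine, TransposesAll B ∧ ∀ l : Filter ℕ, l ≤ atTop →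
      ((fun n : ℕ => (mulTime A n : ℝ)) =o[l] fun n : ℕ => (n : ℝ) * Real.log n) →
      (fun N : ℕ => (wordTime B N : ℝ)) =o[l] fun N : ℕ => (N : ℝ) * Real.log N := by
  obtain ⟨B, hB, K, hK⟩ := h A hA 0
  refine ⟨B, hB, fun l hl ho => ?_⟩
  rw [isLittleO_iff]
  intro ε hε
  set K' : ℝ := max K 1 with hK'
  have hK'1 : 1 ≤ K' := le_max_right _ _
  have hK'K : K ≤ K' := le_max_left _ _
  obtain ⟨u, hu⟩ := pow_unbounded_of_one_lt (2 * K' / ε) (one_lt_two)
  have h2u : (0 : ℝ) < 2 ^ u := by positivity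
  have hu' : K' / 2 ^ u ≤ ε / 2 := by
    rw [div_le_div_iff₀ h2u (by norm_num)]
    rw [div_lt_iff₀ hε] at hu
    nlinarith
  set δ : ℝ := ε / (2 * K' * (u + 1)) with hδ
  have hδ0 : 0 < δ := by positivity
  have h1 := (isLittleO_iff.mp ho) hδ0
  have h2 : ∀ᶠ N : ℕ in l, 2 ≤ N := hl (eventually_ge_atTop 2)
  filter_upwards [h1, h2] with N h3 hN2
  have hlogN : 0 ≤ Real.log N := Real.log_natCast_nonneg N
  rw [Real.norm_of_nonneg (Nat.cast_nonneg _),
    Real.norm_of_nonneg (mul_nonneg (Nat.cast_nonneg _) hlogN)] at h3 ⊢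
  have h5 := hK N hN2 u
  rw [Nat.add_zero, one_mul] at h5
  have hX : 0 ≤ ((u : ℝ) + 1) * mulTime A N + N * Real.log N / 2 ^ u := by positivity
  have h6 : (wordTime B N : ℝ) ≤ K' * ((u + 1) * mulTime A N + N * Real.log N / 2 ^ u) :=
    h5.trans (mul_le_mul_of_nonneg_right hK'K hX)
  have h7 : K' * ((u + 1) * (δ * (N * Real.log N))) = ε / 2 * (N * Real.log N) := by
    rw [hδ]
    field_simp
  have h8 : K' * (N * Real.log N / 2 ^ u) ≤ ε / 2 * (N * Real.log N) := by
    have : K' * (N * Real.log N / 2 ^ u) = K' / 2 ^ u * (N * Real.log N) := by ring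
    rw [this]
    exact mul_le_mul_of_nonneg_right hu' (by positivity)
  have h9 : K' * (((u : ℝ) + 1) * mulTime A N) ≤ K' * ((u + 1) * (δ * (N * Real.log N))) := by
    apply mul_le_mul_of_nonneg_left _ (by positivity)
    exact mul_le_mul_of_nonneg_left h3 (by positivity)
  calc (wordTime B N : ℝ) ≤ _ := h6
    _ = K' * (((u : ℝ) + 1) * mulTime A N) + K' * (N * Real.log N / 2 ^ u) := by ring
    _ ≤ ε / 2 * (N * Real.log N) + ε / 2 * (N * Real.log N) := by
        rw [← h7]
        exact add_le_add h9 (h7 ▸ h8)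
    _ = ε * (N * Real.log N) := by ring

end Vale.Agent.P338
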