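import Vale.Agent.P338.H933.Analysis

/-!
# P338: superlinear speed-up of multiplication gives superlinear speed-up of transposition
-/

namespace Vale.Agent.P338

open Asymptotics Filter

/-- If some machine multiplies in time `o(n log n)` then some machine transposes in time
`o(N log N)`. -/
theorem isLittleO_of_transfer {C : ℕ} (hC : 1 ≤ C) (h : Transfer C) {A : Machine}
    (hA : Multiplies A)
    (ho : (fun n : ℕ => (mulTime A n : ℝ)) =o[atTop] fun n : ℕ => (n : ℝ) * Real.log n) :
    ∃ B : Machine, TransposesAll B ∧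
      (fun N : ℕ => (wordTime B N : ℝ)) =o[atTop] fun N : ℕ => (N : ℝ) * Real.log N := by
  obtain ⟨B, hB, K, hK⟩ := h A hA 0
  refine ⟨B, hB, ?_⟩
  rw [isLittleO_iff]
  intro ε hε
  set K' : ℝ := max K 1 with hK'
  have hK'1 : 1 ≤ K' := le_max_right _ _
  have hK'K : K ≤ K' := le_max_left _ _
  have hCr : (1 : ℝ) ≤ C := by exact_mod_cast hC
  obtain ⟨u, hu⟩ := pow_unbounded_of_one_lt (2 * K' / ε) (one_lt_two)
  have h2u : (0 : ℝ) < 2 ^ u := by positivity
  have hu' : K' / 2 ^ u ≤ ε / 2 := by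
    rw [div_le_div_iff₀ h2u (by norm_num)]
    rw [div_lt_iff₀ hε] at hu
    nlinarith
  -- the constant for `mulTime`
  set δ : ℝ := ε / (4 * K' * (u + 1) * C) with hδ
  have hδ0 : 0 < δ := by positivity
  have h1 := (isLittleO_iff.mp ho) hδ0
  rw [eventually_atTop] at h1 ⊢
  obtain ⟨N₁, hN₁⟩ := h1
  refine ⟨max N₁ (max 2 C), fun N hN => ?_⟩
  have hNN₁ : N₁ ≤ N := le_trans (le_max_left _ _) hN
  have hN2 : 2 ≤ N := le_trans (le_trans (le_max_left _ _) (le_max_right _ _)) hN
  have hNC : C ≤ N := le_trans (le_trans (le_max_right _ _) (le_max_right _ _)) hN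
  have hCN : N ≤ C * N := Nat.le_mul_of_pos_left N hC
  have h2 := hN₁ (C * N) (hNN₁.trans hCN)
  have hlogN : 0 ≤ Real.log N := Real.log_natCast_nonneg N
  have hlogCN : 0 ≤ Real.log ((C * N : ℕ) : ℝ) := Real.log_natCast_nonneg (C * N)
  have hNpos : (0 : ℝ) < N := by
    have : 0 < N := by omega
    exact_mod_cast this
  rw [Real.norm_of_nonneg (Nat.cast_nonneg _),
    Real.norm_of_nonneg (mul_nonneg (Nat.cast_nonneg _) hlogCN)] at h2
  rw [Real.norm_of_nonneg (Nat.cast_nonneg _),
    Real.norm_of_nonneg (mul_nonneg (Nat.cast_nonneg _) hlogN)]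
  have h3 : Real.log ((C * N : ℕ) : ℝ) ≤ 2 * Real.log N := by
    have e : ((C * N : ℕ) : ℝ) ≤ (N : ℝ) * N := by
      have : C * N ≤ N * N := Nat.mul_le_mul_right N hNC
      exact_mod_cast this
    calc Real.log ((C * N : ℕ) : ℝ) ≤ Real.log ((N : ℝ) * N) :=
          Real.log_le_log (by positivity) e
      _ = 2 * Real.log N := by rw [Real.log_mul hNpos.ne' hNpos.ne']; ring
  have h4 : (mulTime A (C * N) : ℝ) ≤ δ * (C * N * (2 * Real.log N)) := by
    refine h2.trans (mul_le_mul_of_nonneg_left ?_ hδ0.le)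
    push_cast
    push_cast at h3
    exact mul_le_mul_of_nonneg_left h3 (by positivity)
  have h5 := hK N hN2 u
  rw [Nat.add_zero] at h5
  have hX : 0 ≤ ((u : ℝ) + 1) * mulTime A (C * N) + N * Real.log N / 2 ^ u := by positivity
  have h6 : (wordTime B N : ℝ) ≤
      K' * ((u + 1) * mulTime A (C * N) + N * Real.log N / 2 ^ u) :=
    h5.trans (mul_le_mul_of_nonneg_right hK'K hX)
  have h7 : K' * ((u + 1) * (δ * (C * N * (2 * Real.log N)))) = ε / 2 * (N * Real.log N) := by
    rw [hδ]
    field_simp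
    ring
  have h8 : K' * (N * Real.log N / 2 ^ u) ≤ ε / 2 * (N * Real.log N) := by
    have : K' * (N * Real.log N / 2 ^ u) = K' / 2 ^ u * (N * Real.log N) := by ring
    rw [this]
    exact mul_le_mul_of_nonneg_right hu' (by positivity)
  have h9 : K' * (((u : ℝ) + 1) * mulTime A (C * N))
      ≤ K' * ((u + 1) * (δ * (C * N * (2 * Real.log N)))) := by
    apply mul_le_mul_of_nonneg_left _ (by positivity)
    exact mul_le_mul_of_nonneg_left h4 (by positivity)
  calc (wordTime B N : ℝ) ≤ _ := h6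
    _ = K' * (((u : ℝ) + 1) * mulTime A (C * N)) + K' * (N * Real.log N / 2 ^ u) := by ring
    _ ≤ ε / 2 * (N * Real.log N) + ε / 2 * (N * Real.log N) := by
        rw [← h7]
        exact add_le_add (h9) (h7 ▸ h8)
    _ = ε * (N * Real.log N) := by ring

end Vale.Agent.P338
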