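import Vale.Agent.P338.H933.FromPrograms
import Vale.Agent.P338.Reg

/-!
# P338: small tools for the final assembly
-/

namespace Vale.Agent.P338

theorem CostBound.add_linear {A : Machine} (hA : Multiplies A) {C s : ℕ} (hC : 1 ≤ C)
    {f g h : ℕ → ℕ} {c : ℕ} (hf : CostBound A C s f) (hg : ∀ N, 2 ≤ N → g N ≤ c * N)
    (hh : ∀ N, 2 ≤ N → h N ≤ f N + g N) : CostBound A C s h := by
  obtain ⟨K, hK⟩ := hf
  refine ⟨K + c, fun N hN u => ?_⟩
  have h1 := hK N hN u
  have h2 := hg N hN
  have h3 := hh N hN
  have h4 : N ≤ mulTime A (C * N + s) :=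
    le_trans (by nlinarith) (hA.le_mulTime (C * N + s))
  set T := mulTime A (C * N + s)
  have h5 : c * N ≤ c * ((u + 1) * T) := by
    apply Nat.mul_le_mul_left
    nlinarith [Nat.zero_le (u * T)]
  have h6 : 2 ^ u * (c * N) ≤ 2 ^ u * (c * ((u + 1) * T)) := Nat.mul_le_mul_left _ h5
  calc 2 ^ u * h N ≤ 2 ^ u * (f N + c * N) := Nat.mul_le_mul_left _ (by omega)
    _ = 2 ^ u * f N + 2 ^ u * (c * N) := by ring
    _ ≤ K * (2 ^ u * ((u + 1) * T) + N * Nat.log 2 N) + 2 ^ u * (c * ((u + 1) * T)) := by
        omega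
    _ ≤ (K + c) * (2 ^ u * ((u + 1) * T) + N * Nat.log 2 N) := by
        have : (K + c) * (2 ^ u * ((u + 1) * T) + N * Nat.log 2 N)
          = K * (2 ^ u * ((u + 1) * T) + N * Nat.log 2 N) + 2 ^ u * (c * ((u + 1) * T))
            + c * (N * Nat.log 2 N) := by ring
        omega

/-- the initial store of the large machine is the lift of the initial store of the base -/
theorem init_lift {R Y Z : Type} [DecidableEq R] [DecidableEq Y] (r : R) (v : List Bool) :
    Function.update (fun _ => [] : Store (R ⊕ Y) (Bool ⊕ Z)) (Sum.inl r)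
      ((v.map Sum.inl).reverse) =
    liftStore (Function.update (fun _ => [] : Store R Bool) r v.reverse) (fun _ => []) := by
  funext x
  cases x with
  | inl x =>
    by_cases h : x = r
    · subst h; simp [liftStore]
    · rw [Function.update_of_ne (by simpa using h)]
      simp [liftStore, h]
  | inr y => rw [Function.update_of_ne (by simp)]; simp [liftStore]

end Vale.Agent.P338
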