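import Vale.Agent.P338.H933.NumD
import Vale.Agent.P338.H51.RD

/-!
# Stage 2: the numbers `2 ^ W / p` and `(p - 1) * (p / 2 ^ (b + 1)) % p` over the registers `RD`
-/

namespace Vale.Agent.P338.Num

open Vale.Agent.P338
open Function (update)

/-! ### Decrement -/

/-- `x := x - 1` (`x > 0`) -/
def decP : Prog NR Bool :=
  .seq (.loop (fun t => t .x == some false) (.act fun _ r => match r with
    | .x => .pop
    | .ta => .push true
    | _ => .nop)) (.seq (.act fun _ r => match r with
    | .x => .rep false
    | _ => .nop) (.flip .ta .x))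

theorem lbits_dec (W x : ℕ) (h0 : 0 < x) (h : x < 2 ^ W) : ∃ k l,
    lbits W x = List.replicate k false ++ true :: l ∧
    lbits W (x - 1) = List.replicate k true ++ false :: l ∧ k + 1 + l.length = W := by
  induction W generalizing x with
  | zero => simp at h; omega
  | succ w ih =>
    rcases Nat.mod_two_eq_zero_or_one x with hx | hx
    · obtain ⟨k, l, h1, h2, h3⟩ := ih (x / 2) (by omega) (by rw [pow_succ] at h; omega)
      refine ⟨k + 1, l, ?_, ?_, by omega⟩
      · show (x % 2 == 1) :: lbits w (x / 2) = _
        rw [h1, hx]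
        rfl
      · show ((x - 1) % 2 == 1) :: lbits w ((x - 1) / 2) = _
        have e1 : (x - 1) / 2 = x / 2 - 1 := by omega
        have e2 : (x - 1) % 2 = 1 := by omega
        rw [e1, e2, h2]
        rfl
    · refine ⟨0, lbits w (x / 2), ?_, ?_, by rw [lbits_length]; omega⟩
      · show (x % 2 == 1) :: lbits w (x / 2) = _
        rw [hx]
        rfl
      · show ((x - 1) % 2 == 1) :: lbits w ((x - 1) / 2) = _
        have e1 : (x - 1) / 2 = x / 2 := by omega
        have e2 : (x - 1) % 2 = 0 := by omega
        rw [e1, e2]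
        rfl

theorem decLoop_runs (k : ℕ) (l : List Bool) (s : NS)
    (hx : s.x = List.replicate k false ++ true :: l) :
    Runs (.loop (fun t => t .x == some false) (.act fun _ r => match r with
      | .x => .pop
      | .ta => .push true
      | _ => .nop)) s.st { s with x := true :: l, ta := List.replicate k true ++ s.ta : NS }.st
      (2 * k + 1) := by
  induction k generalizing s with
  | zero =>
    refine (Runs.loop_stop ?_).conv ?_ (by simp)
    · simp [Store.tops, NS.st, hx]
    · simp only [List.replicate_zero, List.nil_append] at hx ⊢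
      rw [← hx]
  | succ k ih =>
    have e1 : Runs (.act fun (_ : NR → Option Bool) r => match r with
        | .x => .pop
        | .ta => .push true
        | _ => .nop) s.st { s with
          x := List.replicate k false ++ true :: l, ta := true :: s.ta : NS }.st 1 := by
      refine act_ns fun r => ?_
      cases r <;> simp [NS.st, Op.app, hx, List.replicate_succ]
    have e2 := ih { s with x := List.replicate k false ++ true :: l, ta := true :: s.ta } rfl
    refine (Runs.loop_step ?_ e1 e2).conv ?_ ?_
    · simp [Store.tops, NS.st, hx, List.replicate_succ]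
    · congr 2
      simp only [List.replicate_succ']
      simp
    · omega

theorem decP_runs {W x : ℕ} (h0 : 0 < x) (h : x < 2 ^ W) (s : NS) (hx : s.x = lbits W x)
    (hta : s.ta = []) : Runs decP s.st { s with x := lbits W (x - 1) : NS }.st (4 * W + 5) := by
  obtain ⟨k, l, h1, h2, h3⟩ := lbits_dec W x h0 h
  have e1 := decLoop_runs k l s (hx.trans h1)
  have e2 : Runs (.act fun (_ : NR → Option Bool) r => match r with
      | .x => .rep false
      | _ => .nop) { s with x := true :: l, ta := List.replicate k true ++ s.ta : NS }.st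
      { s with x := false :: l, ta := List.replicate k true : NS }.st 1 := by
    refine act_ns fun r => ?_
    cases r <;> simp [NS.st, Op.app, hta]
  have e3 := flip_ns { s with x := false :: l, ta := List.replicate k true } .ta .x (by decide)
  refine (e1.seq (e2.seq e3)).conv ?_ ?_
  · simp only [NS.set, NS.st, List.reverse_replicate]
    rw [← h2, hta]
  · simp only [NS.st, List.length_replicate]
    omega

/-- `acc := (p - 1) * y mod p` -/
def t3Q : Prog NR Bool := .seq (.copy .p .tp .x) (.seq decP (.seq mulP (.clear .x)))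

theorem t3Q_runs {W P D : ℕ} (h0 : 0 < P) (hD : D < P) (hP : 2 * P ≤ 2 ^ W) (s : NS)
    (hc : Clean1 s) (hp : s.p = lbits W P) (hy : s.y = lbits W D) (hx : s.x = [])
    (hacc : s.acc = []) (hyr : s.yr = []) (hbt : s.bt = []) :
    Runs t3Q s.st { s with acc := lbits W ((P - 1) * D % P) : NS }.st
      (20 * W ^ 2 + 70 * W + 20) := by
  have hta : s.ta = [] := by obtain ⟨h1, h2, h3, h4, h5, h6⟩ := hc; assumption
  have e1 : Runs (Prog.copy NR.p .tp .x) s.st { s with x := lbits W P : NS }.st (4 * W + 2) := by
    refine (Runs.copy (r := NR.p) (q := .tp) (dst := .x) (by decide) (by decide) (by decide)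
      (s := s.st) hc.tp).conv ?_ ?_
    · funext r
      cases r <;> simp [NS.st, hx, hp]
    · simp [NS.st, hp, lbits_length]
  have e2 := decP_runs (W := W) (x := P) h0 (by omega) { s with x := lbits W P } rfl hta
  have e3 := mulP_runs (W := W) (P := P) (u := P - 1) (v := D) (by omega) hD hP
    { s with x := lbits W (P - 1) } ⟨hc.1, hc.2, hc.3, hc.4, hc.5, hc.6⟩ rfl hy hp hacc hyr hbt
  have e4 := clear_ns { s with x := lbits W (P - 1), acc := lbits W ((P - 1) * D % P) } .x
  simp only [NS.set, NS.st, lbits_length] at e4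
  refine (e1.seq (e2.seq (e3.seq e4))).conv ?_ (by ring_nf; omega)
  rw [← hx]

/-! ### The program over `RD` -/

/-- registers of `muP` -/
def eMu : NR → RD
  | .acc => .t 0 | .x => .nT3 | .y => .nmu | .p => .np | .ta => .t 1 | .tb => .t 2 | .tp => .t 3
  | .tx => .t 4 | .c1 => .t 5 | .c2 => .t 6 | .yr => .t 7 | .bt => .t 8 | .f => .t 9

/-- registers of `t3Q` -/
def eT3 : NR → RD
  | .acc => .nT3 | .x => .t 0 | .y => .nDe | .p => .np | .ta => .t 1 | .tb => .t 2 | .tp => .t 3
  | .tx => .t 4 | .c1 => .t 5 | .c2 => .t 6 | .yr => .t 7 | .bt => .t 8 | .f => .t 9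

/-- registers of `deP` -/
def eDe : DR → RD
  | .p => .np | .pa => .t 0 | .pb => .t 1 | .de => .nDe | .r => .rb | .r' => .t 2

theorem eMu_injective : Function.Injective eMu := by
  intro u v h
  cases u <;> cases v <;> first | rfl | (exact absurd h (by decide))

theorem eT3_injective : Function.Injective eT3 := by
  intro u v h
  cases u <;> cases v <;> first | rfl | (exact absurd h (by decide))

theorem eDe_injective : Function.Injective eDe := by
  intro u v h
  cases u <;> cases v <;> first | rfl | (exact absurd h (by decide))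

/-- `nmu := 2 ^ W / p`, `nT3 := (p - 1) * (p / 2 ^ (b + 1)) % p` -/
noncomputable def MU : Prog RD Bool :=
  .seq (.copy .rW (.t 0) .nT3) (.seq (muP.ren eMu) (.seq (deP.ren eDe) (.seq (t3Q.ren eT3)
    (.clear .nDe))))

theorem MU_runs (v : DV) (p W b : ℕ) (h1 : 1 < p) (hP : 2 * p ≤ 2 ^ W) (hb : b + 1 ≤ W)
    (hW : v.rW = zer W) (hrb : v.rb = zer b) (hp : v.np = lbits W p) (hmu : v.nmu = [])
    (hT3 : v.nT3 = []) (hDe : v.nDe = []) :
    Runs MU v.st { v with
      nmu := lbits W (2 ^ W / p), nT3 := lbits W ((p - 1) * (p / 2 ^ (b + 1)) % p) }.st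
      (200 * (W * W)) := by
  have e1 : Runs (Prog.copy RD.rW (.t 0) .nT3) v.st { v with nT3 := zer W : DV }.st
      (4 * W + 2) := by
    refine (Runs.copy (r := RD.rW) (q := .t 0) (dst := .nT3) (by decide) (by decide) (by decide)
      (s := v.st) rfl).conv ?_ ?_
    · rw [DV.upd_nT3]
      simp [DV.st, hW, hT3]
    · simp [DV.st, hW, zer]
  have e2 : Runs (muP.ren eMu) { v with nT3 := zer W : DV }.st
      { v with nmu := lbits W (2 ^ W / p) : DV }.st (10 * W ^ 2 + 30 * W + 6) := by
    refine DV.run eMu_injective (muP_runs (W := W) (P := p) h1 hP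
      { x := zer W, p := lbits W p } ⟨rfl, rfl, rfl, rfl, rfl, rfl⟩ rfl rfl (by simp [zer]) rfl rfl)
      ?_ ?_ ?_
    · intro l
      cases l <;> first | rfl | exact hp | exact hmu
    · intro l
      cases l <;> first | rfl | exact hp | exact hT3
    · intro r hr
      cases r <;> first | rfl | exact absurd rfl (hr .x) | exact absurd rfl (hr .y)
  have e3 : Runs (deP.ren eDe) { v with nmu := lbits W (2 ^ W / p) : DV }.st
      { v with nmu := lbits W (2 ^ W / p), nDe := lbits W (p / 2 ^ (b + 1)) : DV }.st
      (10 * W + 10) := by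
    refine DV.run eDe_injective (deP_runs (W := W) (P := p) hb (by omega)) ?_ ?_ ?_
    · intro l
      cases l <;> first | rfl | exact hp | exact hDe | exact hrb
    · intro l
      cases l <;> first | rfl | exact hp | exact hrb
    · intro r hr
      cases r <;> first | rfl | exact absurd rfl (hr .de)
  have e4 : Runs (t3Q.ren eT3)
      { v with nmu := lbits W (2 ^ W / p), nDe := lbits W (p / 2 ^ (b + 1)) : DV }.st
      { v with nmu := lbits W (2 ^ W / p), nDe := lbits W (p / 2 ^ (b + 1))
               nT3 := lbits W ((p - 1) * (p / 2 ^ (b + 1)) % p) : DV }.st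
      (20 * W ^ 2 + 70 * W + 20) := by
    refine DV.run eT3_injective (t3Q_runs (W := W) (P := p) (D := p / 2 ^ (b + 1)) (by omega)
      (Nat.div_lt_self (by omega) (Nat.one_lt_two_pow (by omega))) hP
      { y := lbits W (p / 2 ^ (b + 1)), p := lbits W p } ⟨rfl, rfl, rfl, rfl, rfl, rfl⟩ rfl rfl
      rfl rfl rfl rfl) ?_ ?_ ?_
    · intro l
      cases l <;> first | rfl | exact hp | exact hT3
    · intro l
      cases l <;> first | rfl | exact hp
    · intro r hr
      cases r <;> first | rfl | exact absurd rfl (hr .acc)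
  have e5 : Runs (Prog.clear RD.nDe)
      { v with nmu := lbits W (2 ^ W / p), nDe := lbits W (p / 2 ^ (b + 1))
               nT3 := lbits W ((p - 1) * (p / 2 ^ (b + 1)) % p) : DV }.st
      { v with nmu := lbits W (2 ^ W / p)
               nT3 := lbits W ((p - 1) * (p / 2 ^ (b + 1)) % p) : DV }.st
      (2 * W + 1) := by
    refine (Runs.clear _ _).conv ?_ ?_
    · rw [DV.upd_nDe]
      simp [hDe]
    · simp [DV.st, lbits_length]
  refine (e1.seq (e2.seq (e3.seq (e4.seq e5)))).weaken ?_
  have hW1 : 1 ≤ W := by omega
  have : W ≤ W * W := by nlinarith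
  have h2 : 1 ≤ W * W := by nlinarith
  rw [show W ^ 2 = W * W by ring]
  omega

end Vale.Agent.P338.Num
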