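import Vale.Agent.P338.H463.NumM
import Vale.Agent.P338.H763.Lib

/-!
# Stage 2: the constants `2 ^ W / p`, `p / 2 ^ (b+1)` and the first entry of the third table

`muP`  : from `p = lbits W P` and the ruler `x` (`W` ticks, consumed): `y := lbits W (2 ^ W / P)`.
`t3P`  : from `p = lbits W P` (`P` odd), `y = lbits W D`: `acc := lbits W ((P - 1) * D % P)`.
`deP`  : over own registers, from `p = lbits W P` and a ruler of `b` ticks:
         `de := lbits W (P / 2 ^ (b + 1))`.
-/

namespace Vale.Agent.P338.Num

open Vale.Agent.P338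

/-! ### `2 ^ W / P` -/

/-- one doubling; the quotient bit is pushed on `y` -/
def muBody : Prog NR Bool := .seq (.pop .x) (.seq (addP true) (.act fun t r => match r with
  | .f => .pop
  | .y => .push (!(t .f).getD false)
  | _ => .nop))

/-- `y := 2 ^ W / p` -/
def muP : Prog NR Bool := .seq zeroP (.seq (.act fun _ r => match r with
  | .acc => .rep true
  | _ => .nop) (.seq (.loop (ne .x) muBody) (.clear .acc)))

theorem muBody_runs {W P a : ℕ} (ha : a < P) (hP : 2 * P ≤ 2 ^ W) (s : NS) (hc : Clean1 s)
    (hp : s.p = lbits W P) (hacc : s.acc = lbits W a) (b : Bool) (l : List Bool)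
    (hx : s.x = b :: l) (hf : s.f = []) :
    Runs muBody s.st { s with
      acc := lbits W ((a + a) % P), x := l, y := (!decide (a + a < P)) :: s.y : NS }.st
      (10 * W + 22) := by
  have e1 := pop_ns s .x
  simp only [NS.set, NS.st, hx, List.tail_cons] at e1
  have e2 := dblP_runs ha hP { s with x := l } ⟨hc.1, hc.2, hc.3, hc.4, hc.5, hc.6⟩ hp hacc
  have e3 : Runs (Prog.act fun (t : NR → Option Bool) r => match r with
      | .f => .pop
      | .y => .push (!(t .f).getD false)
      | _ => .nop)
      ({ s with acc := lbits W ((a + a) % P), x := l, f := decide (a + a < P) :: s.f } : NS).st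
      { s with
        acc := lbits W ((a + a) % P), x := l, y := (!decide (a + a < P)) :: s.y : NS }.st 1 := by
    refine act_ns fun r => ?_
    cases r <;> simp [NS.st, Store.tops, Op.app, hf]
  exact (e1.seq (e2.seq e3)).weaken (by omega)

theorem quot_step {P i : ℕ} (hP : 0 < P) :
    lbits (i + 1) (2 ^ (i + 1) / P) =
      (!decide (2 ^ i % P + 2 ^ i % P < P)) :: lbits i (2 ^ i / P) := by
  have h1 : 2 ^ (i + 1) / P / 2 = 2 ^ i / P := by
    rw [Nat.div_div_eq_div_mul, pow_succ, Nat.mul_div_mul_right _ _ (by norm_num)]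
  have hmod : 2 ^ i % P < P := Nat.mod_lt _ hP
  have h2 : 2 ^ (i + 1) / P = 2 * (2 ^ i / P) + (2 ^ i % P + 2 ^ i % P) / P := by
    have h3 : 2 ^ (i + 1) = (2 ^ i % P + 2 ^ i % P) + P * (2 * (2 ^ i / P)) := by
      have := Nat.div_add_mod (2 ^ i) P
      rw [pow_succ]
      calc 2 ^ i * 2 = 2 * 2 ^ i := by ring
        _ = 2 * (P * (2 ^ i / P) + 2 ^ i % P) := by rw [this]
        _ = _ := by ring
    rw [h3, Nat.add_mul_div_left _ _ hP]
    ring
  show (2 ^ (i + 1) / P % 2 == 1) :: lbits i (2 ^ (i + 1) / P / 2) = _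
  rw [h1]
  congr 1
  rw [h2]
  by_cases h : 2 ^ i % P + 2 ^ i % P < P
  · rw [Nat.div_eq_of_lt h]
    simp [h]
  · have h4 : (2 ^ i % P + 2 ^ i % P) / P = 1 := by
      rw [Nat.div_eq_iff hP]
      constructor <;> omega
    rw [h4]
    simp [h, Nat.add_mod]

theorem muLoop_runs {W P : ℕ} (hP0 : 0 < P) (hP : 2 * P ≤ 2 ^ W) (l : List Bool) (i : ℕ) (s : NS)
    (hc : Clean1 s) (hp : s.p = lbits W P) (hacc : s.acc = lbits W (2 ^ i % P))
    (hx : s.x = l) (hf : s.f = []) (hy : s.y = lbits i (2 ^ i / P)) :
    Runs (.loop (ne .x) muBody) s.st { s with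
      acc := lbits W (2 ^ (i + l.length) % P), x := [],
      y := lbits (i + l.length) (2 ^ (i + l.length) / P) : NS }.st
      (l.length * (10 * W + 23) + 1) := by
  induction l generalizing s i with
  | nil =>
    refine (Runs.loop_stop ?_).conv ?_ (by simp)
    · simp [ne, Store.tops, NS.st, hx]
    · simp only [List.length_nil, Nat.add_zero]
      rw [← hacc, ← hy, ← hx]
  | cons b l ih =>
    have e1 := muBody_runs (Nat.mod_lt (2 ^ i) hP0) hP s hc hp hacc b l hx hf
    have hm : (2 ^ i % P + 2 ^ i % P) % P = 2 ^ (i + 1) % P := by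
      rw [← Nat.add_mod, ← two_mul, pow_succ, mul_comm]
    have e2 := ih (i + 1) { s with
      acc := lbits W ((2 ^ i % P + 2 ^ i % P) % P), x := l
      y := (!decide (2 ^ i % P + 2 ^ i % P < P)) :: s.y }
      ⟨hc.1, hc.2, hc.3, hc.4, hc.5, hc.6⟩ hp (by simp only [hm]) rfl hf (by
        show (!decide (2 ^ i % P + 2 ^ i % P < P)) :: s.y = _
        rw [quot_step hP0, hy])
    refine (Runs.loop_step ?_ e1 e2).conv ?_ ?_
    · simp [ne, Store.tops, NS.st, hx]
    · simp only [List.length_cons]
      rw [show i + 1 + l.length = i + (l.length + 1) by ring]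
    · simp only [List.length_cons]
      have : (l.length + 1) * (10 * W + 23) = l.length * (10 * W + 23) + (10 * W + 23) := by ring
      rw [this]
      omega

theorem lbits_one {W : ℕ} (hW : 1 ≤ W) :
    lbits W 1 = true :: List.replicate (W - 1) false := by
  obtain ⟨w, rfl⟩ : ∃ w, W = w + 1 := ⟨W - 1, by omega⟩
  show (1 % 2 == 1) :: lbits w (1 / 2) = _
  simp only [Nat.add_sub_cancel]
  congr 1
  exact lbits_zero w

theorem muP_runs {W P : ℕ} (h1 : 1 < P) (hP : 2 * P ≤ 2 ^ W) (s : NS) (hc : Clean1 s)
    (hp : s.p = lbits W P) (hacc : s.acc = []) (hx : s.x.length = W) (hf : s.f = [])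
    (hy : s.y = []) :
    Runs muP s.st { s with x := [], y := lbits W (2 ^ W / P) : NS }.st
      (10 * W ^ 2 + 30 * W + 6) := by
  have hW : 1 ≤ W := by
    rcases Nat.eq_zero_or_pos W with rfl | h
    · simp at hP; omega
    · exact h
  have hpl : s.p.length = W := by rw [hp, lbits_length]
  have e1 := zeroP_runs s hc.tp hacc
  rw [hpl] at e1
  have e2 : Runs (Prog.act fun (_ : NR → Option Bool) r => match r with
      | .acc => .rep true
      | _ => .nop) (NS.st { s with acc := List.replicate W false })
      (NS.st { s with acc := lbits W 1 }) 1 := by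
    refine act_ns fun r => ?_
    obtain ⟨w, rfl⟩ : ∃ w, W = w + 1 := ⟨W - 1, by omega⟩
    cases r <;> simp [NS.st, Op.app, lbits_one, List.replicate_succ]
  have e3 := muLoop_runs (by omega) hP s.x 0 { s with acc := lbits W 1 }
    ⟨hc.1, hc.2, hc.3, hc.4, hc.5, hc.6⟩ hp (by simp [Nat.mod_eq_of_lt h1]) rfl hf
    (by simp only [hy]; rfl)
  rw [hx, Nat.zero_add] at e3
  have e4 := clear_ns { s with
    acc := lbits W (2 ^ W % P), x := [], y := lbits W (2 ^ W / P) } .acc
  simp only [NS.set, NS.st, lbits_length] at e4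
  refine (e1.seq (e2.seq (e3.seq e4))).conv ?_ ?_
  · rw [← hacc]
  · have : W * (10 * W + 23) = 10 * W ^ 2 + 23 * W := by ring
    rw [this]
    omega

/-! ### `(P - 1) * D mod P` -/

/-- `acc := (p - 1) * y mod p` for odd `p` -/
def t3P : Prog NR Bool := .seq (.copy .p .tp .x) (.seq (.act fun _ r => match r with
  | .x => .rep false
  | _ => .nop) (.seq mulP (.clear .x)))

theorem lbits_pred {W P : ℕ} (hW : 1 ≤ W) (hodd : P % 2 = 1) :
    lbits W (P - 1) = false :: (lbits W P).tail := by
  obtain ⟨w, rfl⟩ : ∃ w, W = w + 1 := ⟨W - 1, by omega⟩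
  show ((P - 1) % 2 == 1) :: lbits w ((P - 1) / 2) = false :: lbits w (P / 2)
  have h1 : (P - 1) / 2 = P / 2 := by omega
  have h2 : (P - 1) % 2 = 0 := by omega
  rw [h1, h2]
  rfl

theorem t3P_runs {W P D : ℕ} (hodd : P % 2 = 1) (hD : D < P) (hP : 2 * P ≤ 2 ^ W) (s : NS)
    (hc : Clean1 s) (hp : s.p = lbits W P) (hy : s.y = lbits W D) (hx : s.x = [])
    (hacc : s.acc = []) (hyr : s.yr = []) (hbt : s.bt = []) :
    Runs t3P s.st { s with acc := lbits W ((P - 1) * D % P) : NS }.st
      (20 * W ^ 2 + 60 * W + 10) := by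
  have hW : 1 ≤ W := by
    rcases Nat.eq_zero_or_pos W with rfl | h
    · simp at hP; omega
    · exact h
  have e1 : Runs (Prog.copy NR.p .tp .x) s.st { s with x := lbits W P : NS }.st (4 * W + 2) := by
    refine (Runs.copy (r := NR.p) (q := .tp) (dst := .x) (by decide) (by decide) (by decide)
      (s := s.st) hc.tp).conv ?_ ?_
    · funext r
      cases r <;> simp [NS.st, hx, hp]
    · simp [NS.st, hp, lbits_length]
  have e2 : Runs (Prog.act fun (_ : NR → Option Bool) r => match r with
      | .x => .rep false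
      | _ => .nop) (NS.st { s with x := lbits W P })
      (NS.st { s with x := lbits W (P - 1) }) 1 := by
    refine act_ns fun r => ?_
    rw [lbits_pred hW hodd]
    obtain ⟨w, rfl⟩ : ∃ w, W = w + 1 := ⟨W - 1, by omega⟩
    cases r <;> simp [NS.st, Op.app, lbits]
  have e3 := mulP_runs (W := W) (P := P) (u := P - 1) (v := D) (by omega) hD hP
    { s with x := lbits W (P - 1) } ⟨hc.1, hc.2, hc.3, hc.4, hc.5, hc.6⟩ rfl hy hp hacc hyr hbt
  have e4 := clear_ns { s with x := lbits W (P - 1), acc := lbits W ((P - 1) * D % P) } .x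
  simp only [NS.set, NS.st, lbits_length] at e4
  refine (e1.seq (e2.seq (e3.seq e4))).conv ?_ (by ring_nf; omega)
  rw [← hx]

/-! ### `P / 2 ^ (b + 1)` -/

/-- Registers of `deP`: the number, two scratch stacks, the result, the ruler and its scratch. -/
inductive DR : Type
  | p | pa | pb | de | r | r'
  deriving DecidableEq

/-- Stores of `deP`. -/
def dst (p pa pb de r r' : List Bool) : Store DR Bool
  | .p => p | .pa => pa | .pb => pb | .de => de | .r => r | .r' => r'

/-- one low bit of `p` goes to `pa`, a zero to `de` -/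
def deLow : Prog DR Bool := .act fun t x => match x with
  | .p => .pop
  | .pa => .push ((t .p).getD false)
  | .de => .push false
  | .r => .pop
  | .r' => .push false
  | _ => .nop

/-- one high bit goes back from `pb` to `p` and to `de` -/
def deHigh : Prog DR Bool := .act fun t x => match x with
  | .pb => .pop
  | .p => .push ((t .pb).getD false)
  | .de => .push ((t .pb).getD false)
  | _ => .nop

/-- `de := p / 2 ^ (b + 1)` where `b = |r|` -/
def deP : Prog DR Bool :=
  .seq (.whileNE .r deLow) (.seq (.flip .r' .r) (.seq (.act fun t x => match x with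
    | .p => .pop
    | .pa => .push ((t .p).getD false)
    | .de => .push false
    | _ => .nop) (.seq (.flip .p .pb) (.seq (.whileNE .pb deHigh) (.flip .pa .p)))))

theorem deLow_runs (u v pa de r' : List Bool) :
    Runs (.whileNE .r deLow) (dst (u ++ v) pa [] de (zer u.length) r')
      (dst v (u.reverse ++ pa) [] (zer u.length ++ de) [] (zer u.length ++ r'))
      (2 * u.length + 1) := by
  induction u generalizing pa de r' with
  | nil => exact (Runs.whileNE_nil rfl).conv (by simp [zer]) (by simp)
  | cons a u ih =>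
    have e1 : Runs deLow (dst (a :: u ++ v) pa [] de (zer (a :: u).length) r')
        (dst (u ++ v) (a :: pa) [] (false :: de) (zer u.length) (false :: r')) 1 := by
      refine (Runs.act _ _).conv ?_ le_rfl
      funext x
      cases x <;> simp [dst, Op.app, Store.tops, zer, List.replicate_succ]
    have e2 := ih (a :: pa) (false :: de) (false :: r')
    refine (Runs.whileNE_cons (l := zer u.length) (a := false) ?_ e1 e2).conv ?_ ?_
    · simp [dst, zer, List.replicate_succ]
    · have hz : ∀ l : List Bool, zer u.length ++ false :: l = zer (a :: u).length ++ l := by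
        intro l
        simp only [zer, List.length_cons, List.replicate_succ']
        simp
      rw [hz, hz]
      simp
    · simp only [List.length_cons]; omega

theorem deHigh_runs (u v pa de r r' : List Bool) :
    Runs (.whileNE .pb deHigh) (dst v pa u de r r')
      (dst (u.reverse ++ v) pa [] (u.reverse ++ de) r r') (2 * u.length + 1) := by
  induction u generalizing v de with
  | nil => exact (Runs.whileNE_nil rfl).conv (by simp) (by simp)
  | cons a u ih =>
    have e1 : Runs deHigh (dst v pa (a :: u) de r r')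
        (dst (a :: v) pa u (a :: de) r r') 1 := by
      refine (Runs.act _ _).conv ?_ le_rfl
      funext x
      cases x <;> simp [dst, Op.app, Store.tops]
    refine (Runs.whileNE_cons (l := u) (a := a) ?_ e1 (ih (a :: v) (a :: de))).conv ?_ ?_
    · simp [dst]
    · simp
    · simp only [List.length_cons]; omega

theorem deP_runs_list (u v : List Bool) (a : Bool) :
    Runs deP (dst (u ++ a :: v) [] [] [] (zer u.length) [])
      (dst (u ++ a :: v) [] [] (v ++ zer (u.length + 1)) (zer u.length) [])
      (10 * (u ++ a :: v).length + 10) := by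
  have e1 := deLow_runs u (a :: v) [] [] []
  have e2 : Runs (Prog.flip DR.r' .r) (dst (a :: v) (u.reverse ++ []) [] (zer u.length ++ []) []
      (zer u.length ++ [])) (dst (a :: v) u.reverse [] (zer u.length) (zer u.length) [])
      (2 * u.length + 1) := by
    refine (Runs.flip (by decide) _).conv ?_ ?_
    · funext x
      cases x <;> simp [dst, zer]
    · simp [dst, zer]
  have e3 : Runs (Prog.act fun (t : DR → Option Bool) x => match x with
      | .p => .pop
      | .pa => .push ((t .p).getD false)
      | .de => .push false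
      | _ => .nop) (dst (a :: v) u.reverse [] (zer u.length) (zer u.length) [])
      (dst v (a :: u.reverse) [] (zer (u.length + 1)) (zer u.length) []) 1 := by
    refine (Runs.act _ _).conv ?_ le_rfl
    funext x
    cases x <;> simp [dst, Op.app, Store.tops, zer, List.replicate_succ]
  have e4 : Runs (Prog.flip DR.p .pb) (dst v (a :: u.reverse) [] (zer (u.length + 1))
      (zer u.length) []) (dst [] (a :: u.reverse) v.reverse (zer (u.length + 1))
      (zer u.length) []) (2 * v.length + 1) := by
    refine (Runs.flip (by decide) _).conv ?_ ?_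
    · funext x
      cases x <;> simp [dst]
    · simp [dst]
  have e5 := deHigh_runs v.reverse [] (a :: u.reverse) (zer (u.length + 1)) (zer u.length) []
  have e6 : Runs (Prog.flip DR.pa .p) (dst (v.reverse.reverse ++ []) (a :: u.reverse) []
      (v.reverse.reverse ++ zer (u.length + 1)) (zer u.length) [])
      (dst (u ++ a :: v) [] [] (v ++ zer (u.length + 1)) (zer u.length) [])
      (2 * (u.length + 1) + 1) := by
    refine (Runs.flip (by decide) _).conv ?_ ?_
    · funext x
      cases x <;> simp [dst]
    · simp [dst]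
  refine (e1.seq (e2.seq (e3.seq (e4.seq (e5.seq e6))))).weaken ?_
  simp only [List.length_append, List.length_cons, List.length_reverse]
  omega

theorem lbits_split (k l x : ℕ) : lbits (k + l) x = lbits k x ++ lbits l (x / 2 ^ k) := by
  induction k generalizing x with
  | zero => simp [lbits]
  | succ k ih =>
    rw [show k + 1 + l = k + l + 1 by ring]
    show (x % 2 == 1) :: lbits (k + l) (x / 2) = (x % 2 == 1) :: (lbits k (x / 2) ++ _)
    rw [ih, Nat.div_div_eq_div_mul, pow_succ, mul_comm (2 ^ k) 2]

theorem deP_runs {W P b : ℕ} (hb : b + 1 ≤ W) (hP : P < 2 ^ W) :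
    Runs deP (dst (lbits W P) [] [] [] (zer b) [])
      (dst (lbits W P) [] [] (lbits W (P / 2 ^ (b + 1))) (zer b) []) (10 * W + 10) := by
  obtain ⟨w, rfl⟩ : ∃ w, W = b + (1 + w) := ⟨W - b - 1, by omega⟩
  have e : lbits (b + (1 + w)) P =
      lbits b P ++ (P / 2 ^ b % 2 == 1) :: lbits w (P / 2 ^ (b + 1)) := by
    rw [lbits_split, show 1 + w = w + 1 by ring]
    show _ ++ (_ :: lbits w (P / 2 ^ b / 2)) = _
    rw [Nat.div_div_eq_div_mul, pow_succ]
  have h1 := deP_runs_list (lbits b P) (lbits w (P / 2 ^ (b + 1))) (P / 2 ^ b % 2 == 1)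
  rw [lbits_length, ← e, lbits_length] at h1
  refine h1.conv ?_ le_rfl
  congr 1
  have h2 : P / 2 ^ (b + 1) < 2 ^ w := by
    rw [Nat.div_lt_iff_lt_mul (by positivity), ← pow_add]
    convert hP using 2
    ring
  refine (eq_lbits ?_ ?_)
  · simp [lbits_length, zer]; ring
  · rw [lval_append, lval_lbits, Nat.mod_eq_of_lt h2]
    simp only [zer]
    rw [lval_zer]
    simp

end Vale.Agent.P338.Num
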